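import Vale.Agent.P067.Z.Chamber

/-! Polynomial matrices as periodic endomorphisms of the space with basis indexed by the
integers. -/

open Polynomial

namespace Vale.Agent.P067

variable {K : Type} [Field K] {n : ℕ}

/-- A polynomial placed in the coordinates congruent to `i`. -/
noncomputable def emb (i : Fin n) : K[X] →ₗ[K] Vec K :=
  Polynomial.lsum fun k : ℕ => Finsupp.lsingle ((i : ℤ) + n * k)

theorem emb_monomial (i : Fin n) (k : ℕ) (c : K) :
    emb i (monomial k c) = Finsupp.single ((i : ℤ) + n * k) c := by
  simp [emb, Polynomial.sum_monomial_index]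

theorem pos_inj {i i' : Fin n} {k k' : ℤ}
    (h : (i : ℤ) + n * k = (i' : ℤ) + n * k') : i = i' ∧ k = k' := by
  have hn : (0 : ℤ) < n := by have := i.isLt; omega
  have h1 : ((i : ℤ) + n * k) % n = i := by
    rw [Int.add_mul_emod_self_left, Int.emod_eq_of_lt (by omega) (by exact_mod_cast i.isLt)]
  have h2 : ((i' : ℤ) + n * k') % n = i' := by
    rw [Int.add_mul_emod_self_left, Int.emod_eq_of_lt (by omega) (by exact_mod_cast i'.isLt)]
  rw [h, h2] at h1
  have hi : i = i' := Fin.ext (by exact_mod_cast h1.symm)
  subst hi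
  exact ⟨rfl, mul_left_cancel₀ hn.ne' (add_left_cancel h)⟩

theorem emb_apply (i i' : Fin n) (f : K[X]) (k : ℕ) :
    emb i f ((i' : ℤ) + n * k) = if i = i' then f.coeff k else 0 := by
  induction f using Polynomial.induction_on' with
  | add p q hp hq =>
    rw [(emb i).map_add, Finsupp.add_apply, hp, hq]
    split_ifs <;> simp
  | monomial m c =>
    rw [emb_monomial, Finsupp.single_apply, Polynomial.coeff_monomial]
    by_cases h : i = i' ∧ m = k
    · obtain ⟨rfl, rfl⟩ := h
      simp
    · rw [if_neg fun he => h ⟨(pos_inj he).1, by exact_mod_cast (pos_inj he).2⟩]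
      split_ifs with h1 h2 <;> simp_all

theorem emb_apply_neg (i : Fin n) (f : K[X]) {x : ℤ} (hx : x < 0) : emb i f x = 0 := by
  induction f using Polynomial.induction_on' with
  | add p q hp hq => rw [(emb i).map_add, Finsupp.add_apply, hp, hq, add_zero]
  | monomial m c =>
    rw [emb_monomial, Finsupp.single_apply, if_neg]
    have : (0 : ℤ) ≤ n * m := by positivity
    omega

variable [NeZero n]

/-- A nonnegative position splits as a residue and a multiple of the period. -/
theorem exists_pos_eq {x : ℤ} (hx : 0 ≤ x) :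
    ∃ (i : Fin n) (k : ℕ), x = (i : ℤ) + n * k := by
  have hn : (0 : ℤ) < n := by exact_mod_cast NeZero.pos n
  refine ⟨Chamber.typ x, (x / n).toNat, ?_⟩
  rw [Int.toNat_of_nonneg (Int.ediv_nonneg hx hn.le), mul_comm]
  exact (Chamber.typ_spec x).symm

/-- The column `j` of a matrix, as a vector. -/
noncomputable def colVec (g : Matrix (Fin n) (Fin n) K[X]) (j : Fin n) : Vec K :=
  ∑ i, emb i (g i j)

omit [NeZero n] in
theorem colVec_apply (g : Matrix (Fin n) (Fin n) K[X]) (i j : Fin n) (k : ℕ) :
    colVec g j ((i : ℤ) + n * k) = (g i j).coeff k := by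
  simp [colVec, Finsupp.finsetSum_apply, emb_apply]

omit [NeZero n] in
theorem colVec_apply_neg (g : Matrix (Fin n) (Fin n) K[X]) (j : Fin n) {x : ℤ} (hx : x < 0) :
    colVec g j x = 0 := by
  simp [colVec, Finsupp.finsetSum_apply, emb_apply_neg _ _ hx]

/-- The periodic endomorphism of a matrix. -/
noncomputable def act (g : Matrix (Fin n) (Fin n) K[X]) : Vec K →ₗ[K] Vec K :=
  Finsupp.linearCombination K fun m : ℤ => shift K (m / n * n) (colVec g (Chamber.typ m))

theorem act_single (g : Matrix (Fin n) (Fin n) K[X]) (m : ℤ) (c : K) :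
    act g (Finsupp.single m c) = c • shift K (m / n * n) (colVec g (Chamber.typ m)) := by
  rw [act, Finsupp.linearCombination_single]

omit [NeZero n] in
theorem shift_single (m x : ℤ) (c : K) :
    shift K m (Finsupp.single x c) = Finsupp.single (x + m) c := by
  ext y
  rw [shift_apply, Finsupp.single_apply, Finsupp.single_apply]
  exact if_congr (by omega) rfl rfl

theorem ediv_pos_eq (i : Fin n) (k : ℤ) : ((i : ℤ) + n * k) / n = k := by
  have hn : (0 : ℤ) < n := by exact_mod_cast NeZero.pos n
  rw [Int.add_mul_ediv_left _ _ hn.ne', Int.ediv_eq_zero_of_lt (by omega) (by exact_mod_cast i.isLt),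
    zero_add]

theorem typ_pos (i : Fin n) (k : ℤ) : Chamber.typ (n := n) ((i : ℤ) + n * k) = i := by
  rw [mul_comm, Chamber.typ_add_mul, Chamber.typ_natCast]

omit [NeZero n] in
theorem shift_emb (i : Fin n) (f : K[X]) (k : ℕ) :
    shift K ((k : ℤ) * n) (emb i f) = emb i (X ^ k * f) := by
  induction f using Polynomial.induction_on' with
  | add p q hp hq => simp only [map_add, mul_add, hp, hq]
  | monomial m c =>
    rw [X_pow_mul_monomial, emb_monomial, emb_monomial, shift_single]
    congr 1
    push_cast
    ring

theorem act_emb (g : Matrix (Fin n) (Fin n) K[X]) (i : Fin n) (f : K[X]) :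
    act g (emb i f) = ∑ l, emb l (g l i * f) := by
  induction f using Polynomial.induction_on' with
  | add p q hp hq => simp only [map_add, mul_add, Finset.sum_add_distrib, hp, hq]
  | monomial m c =>
    rw [emb_monomial, act_single, ediv_pos_eq, typ_pos, colVec, map_sum, Finset.smul_sum]
    refine Finset.sum_congr rfl fun l _ => ?_
    rw [shift_emb, ← map_smul, ← C_mul_X_pow_eq_monomial, smul_eq_C_mul]
    congr 1
    ring

theorem act_colVec (g h : Matrix (Fin n) (Fin n) K[X]) (j : Fin n) :
    act g (colVec h j) = colVec (g * h) j := by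
  simp only [colVec, map_sum, act_emb, Matrix.mul_apply]
  rw [Finset.sum_comm]

omit [NeZero n] in
theorem colVec_one (j : Fin n) :
    colVec (1 : Matrix (Fin n) (Fin n) K[X]) j = Finsupp.single ((j : ℤ)) 1 := by
  rw [colVec, Finset.sum_eq_single j]
  · rw [Matrix.one_apply_eq, ← monomial_zero_one, emb_monomial]
    simp
  · intro i _ hi
    rw [Matrix.one_apply_ne hi, map_zero]
  · intro h
    exact absurd (Finset.mem_univ j) h

theorem act_shift (g : Matrix (Fin n) (Fin n) K[X]) (k : ℤ) (f : Vec K) :
    act g (shift K (k * n) f) = shift K (k * n) (act g f) := by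
  have hn : (0 : ℤ) < n := by exact_mod_cast NeZero.pos n
  induction f using Finsupp.induction_linear with
  | zero => simp
  | add p q hp hq => simp only [map_add, hp, hq]
  | single m c =>
    rw [shift_single, act_single, act_single, map_smul, Chamber.typ_add_mul,
      Int.add_mul_ediv_right _ _ hn.ne', ← LinearEquiv.trans_apply, shift_trans]
    congr 2
    congr 1
    ring

theorem act_mul (g h : Matrix (Fin n) (Fin n) K[X]) : act (g * h) = (act g).comp (act h) := by
  refine Finsupp.lhom_ext fun m c => ?_
  rw [LinearMap.comp_apply, act_single, act_single, map_smul, act_shift, act_colVec]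

theorem act_one : act (1 : Matrix (Fin n) (Fin n) K[X]) = LinearMap.id := by
  refine Finsupp.lhom_ext fun m c => ?_
  rw [act_single, colVec_one, shift_single, Chamber.typ_spec, LinearMap.id_apply,
    Finsupp.smul_single, smul_eq_mul, mul_one]

omit [NeZero n] in
theorem colVec_injective {g h : Matrix (Fin n) (Fin n) K[X]}
    (he : ∀ j, colVec g j = colVec h j) : g = h := by
  refine Matrix.ext fun i j => Polynomial.ext fun k => ?_
  rw [← colVec_apply, he, colVec_apply]

end Vale.Agent.P067
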