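import Vale.Agent.P067.Z.BridgeStatement
import Vale.Agent.P067.Z.BridgeAct
import Vale.Agent.P067.Alg.Basic

/-! `U` acts simply transitively on the chambers of potential zero. -/

open Polynomial Submodule

namespace Vale.Agent.P067

variable {K : Type} [Field K] {n : ℕ} [NeZero n]

theorem single_mem_low {a : ℤ} {m : ℤ} (c : K) (h : m < a) : Finsupp.single m c ∈ low K a :=
  mem_low.2 fun x hx => by simp [show m ≠ x by omega]

theorem single_mem_high {a : ℤ} {m : ℤ} (c : K) (h : a ≤ m) : Finsupp.single m c ∈ high K a :=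
  mem_high.2 fun x hx => by simp [show m ≠ x by omega]

omit [NeZero n] in
theorem mem_of_singles {S T : Submodule K (Vec K)} {f : Vec K}
    (hf : ∀ m, f m ≠ 0 → Finsupp.single m (1 : K) ∈ S) (hST : S ≤ T) : f ∈ T := by
  refine hST ?_
  rw [← f.sum_single]
  refine S.sum_mem fun m hm => ?_
  have := S.smul_mem (f m) (hf m (Finsupp.mem_support_iff.1 hm))
  simpa [Finsupp.smul_single] using this

theorem act_le {g : Matrix (Fin n) (Fin n) K[X]} {S T : Submodule K (Vec K)} (P : ℤ → Prop)
    (hS : ∀ f ∈ S, ∀ m, f m ≠ 0 → P m)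
    (h : ∀ m, P m → act g (Finsupp.single m 1) ∈ T) : S.map (act g) ≤ T := by
  rintro _ ⟨f, hf, rfl⟩
  rw [← f.sum_single, map_finsuppSum]
  refine T.sum_mem fun m hm => ?_
  have := T.smul_mem (f m) (h m (hS f hf m (Finsupp.mem_support_iff.1 hm)))
  rwa [← map_smul, Finsupp.smul_single, smul_eq_mul, mul_one] at this

/-- The degree condition on an arbitrary matrix. -/
def DegCondM (a : Fin n) (g : Matrix (Fin n) (Fin n) K[X]) : Prop :=
  ∀ i j : Fin n, ∀ k : ℕ, (g i j).coeff k ≠ 0 →
    k + (if j < a then 1 else 0) ≤ if i < a then 1 else 0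

theorem act_single_one (g : Matrix (Fin n) (Fin n) K[X]) (j : Fin n) (l : ℤ) :
    act g (Finsupp.single ((j : ℤ) + n * l) 1) = shift K (l * n) (colVec g j) := by
  rw [act_single, ediv_pos_eq, typ_pos, one_smul]

theorem exists_split (m : ℤ) : ∃ (j : Fin n) (l : ℤ), m = (j : ℤ) + n * l :=
  ⟨Chamber.typ m, m / n, by rw [mul_comm]; exact (Chamber.typ_spec m).symm⟩

omit [NeZero n] in
theorem shift_colVec_ne {g : Matrix (Fin n) (Fin n) K[X]} {j : Fin n} {l x : ℤ}
    (hx : shift K (l * n) (colVec g j) x ≠ 0) [NeZero n] :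
    ∃ (i : Fin n) (k : ℕ), x = (i : ℤ) + n * k + l * n ∧ (g i j).coeff k ≠ 0 := by
  rw [shift_apply] at hx
  rcases lt_or_ge (x - l * n) 0 with h | h
  · exact absurd (colVec_apply_neg g j h) hx
  · obtain ⟨i, k, he⟩ := exists_pos_eq (n := n) h
    rw [he, colVec_apply] at hx
    exact ⟨i, k, by omega, hx⟩

theorem act_low_le_iff {a : Fin n} {g : Matrix (Fin n) (Fin n) K[X]} :
    (low K ((a : ℕ) : ℤ)).map (act g) ≤ low K ((a : ℕ) : ℤ) ↔ DegCondM a g := by
  have hn : (0 : ℤ) < n := by exact_mod_cast NeZero.pos n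
  have ha : ((a : ℕ) : ℤ) < n := by exact_mod_cast a.isLt
  constructor
  · intro h i j k hk
    by_contra hcon
    obtain ⟨l, hl1, hl2⟩ : ∃ l : ℤ, (j : ℤ) + n * l < (a : ℕ) ∧
        ((a : ℕ) : ℤ) ≤ (i : ℤ) + n * k + l * n := by
      have hi : ((i : ℕ) : ℤ) < n := by exact_mod_cast i.isLt
      have hj : ((j : ℕ) : ℤ) < n := by exact_mod_cast j.isLt
      have h2 : 2 ≤ k → (2 : ℤ) * n ≤ (n : ℤ) * k := fun h => by
        rw [mul_comm (2 : ℤ)]
        exact mul_le_mul_of_nonneg_left (by exact_mod_cast h) hn.le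
      by_cases hja : j < a
      · refine ⟨0, by simp only [mul_zero, add_zero]; exact_mod_cast hja, ?_⟩
        rw [if_pos hja] at hcon
        rcases (show k = 0 ∨ k = 1 ∨ 2 ≤ k by omega) with rfl | rfl | hk2
        · split_ifs at hcon with hia <;> simp only [Fin.lt_def] at * <;> omega
        · simp only [Nat.cast_one]; omega
        · have := h2 hk2; omega
      · refine ⟨-1, by simp only [Fin.lt_def] at hja; omega, ?_⟩
        rw [if_neg hja] at hcon
        rcases (show k = 0 ∨ k = 1 ∨ 2 ≤ k by omega) with rfl | rfl | hk2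
        · exact absurd (Nat.zero_le _) hcon
        · split_ifs at hcon with hia <;> simp only [Fin.lt_def, Nat.cast_one] at * <;> omega
        · have := h2 hk2; omega
    have hmem := h (mem_map_of_mem (single_mem_low (1 : K) hl1))
    rw [act_single_one] at hmem
    have := mem_low.1 hmem _ hl2
    rw [shift_apply, add_sub_cancel_right, colVec_apply] at this
    exact hk this
  · intro hg
    refine act_le (fun m => m < ((a : ℕ) : ℤ)) (fun f hf m hm => ?_) fun m hm => mem_low.2 fun x hx => ?_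
    · by_contra h
      exact hm (mem_low.1 hf m (not_lt.1 h))
    · obtain ⟨j, l, rfl⟩ := exists_split (n := n) m
      rw [act_single_one]
      by_contra hne
      obtain ⟨i, k, rfl, hk⟩ := shift_colVec_ne hne
      have hdeg := hg i j k hk
      have hi : ((i : ℕ) : ℤ) < n := by exact_mod_cast i.isLt
      have hl : l ≤ 0 := by
        by_contra hl
        have : (n : ℤ) * 1 ≤ n * l := mul_le_mul_of_nonneg_left (by omega) hn.le
        omega
      by_cases hja : j < a
      · have hln : l * (n : ℤ) ≤ 0 := mul_nonpos_of_nonpos_of_nonneg hl hn.le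
        rw [if_pos hja] at hdeg
        split_ifs at hdeg with hia
        · obtain rfl : k = 0 := by omega
          simp only [Fin.lt_def] at hia
          omega
        · omega
      · simp only [Fin.lt_def] at hja
        have hl1 : l ≤ -1 := by
          by_contra hl1
          obtain rfl : l = 0 := by omega
          omega
        have hln : l * (n : ℤ) ≤ -1 * n := mul_le_mul_of_nonneg_right hl1 hn.le
        rw [if_neg (by rwa [Fin.lt_def])] at hdeg
        split_ifs at hdeg with hia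
        · simp only [Fin.lt_def] at hia
          rcases (show k = 0 ∨ k = 1 by omega) with rfl | rfl <;> omega
        · obtain rfl : k = 0 := by omega
          omega

section group

variable {p : ℕ} [Fact p.Prime]

/-- The automorphism of an element of `U`. -/
noncomputable def actE (g : ↥(U n p)) : Vec (ZMod p) ≃ₗ[ZMod p] Vec (ZMod p) :=
  LinearEquiv.ofLinear (act g.1.1) (act (g⁻¹ : ↥(U n p)).1.1)
    (by rw [← act_mul, ← Matrix.SpecialLinearGroup.coe_mul, ← Subgroup.coe_mul, mul_inv_cancel,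
      Subgroup.coe_one, Matrix.SpecialLinearGroup.coe_one, act_one])
    (by rw [← act_mul, ← Matrix.SpecialLinearGroup.coe_mul, ← Subgroup.coe_mul, inv_mul_cancel,
      Subgroup.coe_one, Matrix.SpecialLinearGroup.coe_one, act_one])

theorem actE_apply (g : ↥(U n p)) (f : Vec (ZMod p)) : actE g f = act g.1.1 f := rfl

theorem act_act_inv (g : ↥(U n p)) (f : Vec (ZMod p)) :
    act g.1.1 (act (g⁻¹ : ↥(U n p)).1.1 f) = f :=
  (actE g).apply_symm_apply f

/-- The chain of an element of `U`. -/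
noncomputable def chainM (g : ↥(U n p)) (a : ℤ) : Submodule (ZMod p) (Vec (ZMod p)) :=
  (low (ZMod p) a).map (act g.1.1)

theorem act_high_le (g : ↥(U n p)) (b : ℤ) :
    (high (ZMod p) b).map (act g.1.1) ≤ high (ZMod p) b := by
  refine act_le (fun m => b ≤ m) (fun f hf m hm => ?_) fun m hm => mem_high.2 fun x hx => ?_
  · by_contra h
    exact hm (mem_high.1 hf m (not_le.1 h))
  · obtain ⟨j, l, rfl⟩ := exists_split (n := n) m
    rw [act_single_one]
    by_contra hne
    obtain ⟨i, k, rfl, hk⟩ := shift_colVec_ne hne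
    rcases Nat.eq_zero_or_pos k with rfl | hk0
    · have : ¬ i < j := fun hlt => hk ((coeff_zero_of_mem_U g i j).1 hlt)
      simp only [Fin.lt_def] at this
      rw [mul_comm l] at hx
      omega
    · have hn : (n : ℤ) * 1 ≤ (n : ℤ) * k :=
        mul_le_mul_of_nonneg_left (by exact_mod_cast hk0) (by positivity)
      have hj : ((j : ℕ) : ℤ) < n := by exact_mod_cast j.isLt
      rw [mul_comm l] at hx
      omega

theorem chainM_inf_high (g : ↥(U n p)) (a b : ℤ) :
    chainM g a ⊓ high (ZMod p) b = (low (ZMod p) a ⊓ high (ZMod p) b).map (act g.1.1) := by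
  refine le_antisymm ?_ ?_
  · rintro _ ⟨⟨f, hf, rfl⟩, h2⟩
    refine ⟨f, ⟨hf, ?_⟩, rfl⟩
    have := act_high_le g⁻¹ b (mem_map_of_mem h2)
    rwa [show act (g⁻¹ : ↥(U n p)).1.1 (act g.1.1 f) = f from (actE g).symm_apply_apply f] at this
  · exact le_inf (map_mono inf_le_left) ((map_mono inf_le_right).trans (act_high_le g b))

theorem low_covBy (a : ℤ) : low (ZMod p) a ⋖ low (ZMod p) (a + 1) := by
  refine ⟨lt_of_le_not_ge (low_mono (by omega)) fun h => ?_, fun S h1 h2 => ?_⟩
  · have := mem_low.1 (h (single_mem_low (1 : ZMod p) (show a < a + 1 by omega))) a le_rfl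
    simp at this
  · obtain ⟨f, hf, hfa⟩ := SetLike.exists_of_lt h1
    have hf1 := mem_low.1 (h2.le hf)
    have hne : f a ≠ 0 := fun h0 => hfa (mem_low.2 fun x hx => by
      rcases (show x = a ∨ a + 1 ≤ x by omega) with rfl | hx'
      · exact h0
      · exact hf1 x hx')
    refine h2.not_ge fun u hu => ?_
    have hr : u - (u a / f a) • f ∈ low (ZMod p) a := mem_low.2 fun x hx => by
      rcases (show x = a ∨ a + 1 ≤ x by omega) with rfl | hx'
      · simp [div_mul_cancel₀ _ hne]
      · simp [mem_low.1 hu x hx', hf1 x hx']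
    have := add_mem (h1.le hr) (S.smul_mem (u a / f a) hf)
    rwa [sub_add_cancel] at this

theorem shiftS_chainM (g : ↥(U n p)) (a : ℤ) :
    chainM g (a + n) = shiftS (n : ℤ) (chainM g a) := by
  rw [chainM, chainM, ← shiftS_low, shiftS, shiftS, ← Submodule.map_comp, ← Submodule.map_comp]
  refine congrArg (fun φ => Submodule.map φ (low (ZMod p) a)) (LinearMap.ext fun f => ?_)
  simpa using act_shift g.1.1 1 f

theorem exists_act_low_le (g : ↥(U n p)) :
    ∃ c : ℤ, ∀ a, (low (ZMod p) a).map (act g.1.1) ≤ low (ZMod p) (a + c) := by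
  obtain ⟨D, hD⟩ : ∃ D : ℕ, ∀ i j k, (g.1.1 i j).coeff k ≠ 0 → k ≤ D :=
    ⟨Finset.univ.sup fun a : Fin n × Fin n => (g.1.1 a.1 a.2).natDegree, fun i j k hk =>
      (Polynomial.le_natDegree_of_ne_zero hk).trans
        (Finset.le_sup (f := fun a : Fin n × Fin n => (g.1.1 a.1 a.2).natDegree)
          (Finset.mem_univ (i, j)))⟩
  refine ⟨(n : ℤ) * D + n, fun a => act_le (fun m => m < a) (fun f hf m hm => ?_)
    fun m hm => mem_low.2 fun x hx => ?_⟩
  · by_contra h
    exact hm (mem_low.1 hf m (not_lt.1 h))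
  · obtain ⟨j, l, rfl⟩ := exists_split (n := n) m
    rw [act_single_one]
    by_contra hne
    obtain ⟨i, k, rfl, hk⟩ := shift_colVec_ne hne
    have hkD : (n : ℤ) * k ≤ (n : ℤ) * D :=
      mul_le_mul_of_nonneg_left (by exact_mod_cast hD i j k hk) (by positivity)
    have hi : ((i : ℕ) : ℤ) < n := by exact_mod_cast i.isLt
    rw [mul_comm l] at hx
    omega

theorem jump_chainM (g : ↥(U n p)) (a : ℤ) :
    ChainOn.jumpAt (pos (ZMod p) n).toFilt (chainM g) a = a := by
  refine Filt.IsJump.jump_eq ⟨?_, ?_⟩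
  · intro h
    have hmem : act g.1.1 (Finsupp.single a 1) ∈ chainM g (a + 1) ⊓ high (ZMod p) a := by
      rw [chainM_inf_high]
      exact mem_map_of_mem ⟨single_mem_low _ (by omega), single_mem_high _ le_rfl⟩
    obtain ⟨f, hf, he⟩ := h hmem
    have := (actE g).injective he
    subst this
    simpa using mem_low.1 hf a le_rfl
  · show chainM g (a + 1) ⊓ high (ZMod p) (a + 1) ≤ chainM g a
    rw [chainM_inf_high, low_inf_high le_rfl, Submodule.map_bot]
    exact bot_le

/-- The chamber of an element of `U`. -/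
noncomputable def chamberOf (g : ↥(U n p)) : Chamber (ZMod p) n where
  M := chainM g
  cov a := by
    obtain ⟨h1, h2⟩ := low_covBy (p := p) a
    have hinj : Function.Injective (Submodule.map (act g.1.1)) :=
      Submodule.map_injective_of_injective (actE g).injective
    refine ⟨lt_of_le_of_ne (map_mono h1.le) fun h => h1.ne (hinj h), fun S hS1 hS2 => ?_⟩
    have e : S = (S.comap (act g.1.1)).map (act g.1.1) :=
      (Submodule.map_comap_eq_of_surjective (actE g).surjective S).symm
    rw [e] at hS1 hS2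
    refine h2 (c := S.comap (act g.1.1)) ?_ ?_
    · refine lt_of_le_of_ne ?_ fun h => hS1.ne (by rw [← h]; rfl)
      exact (Submodule.map_le_map_iff_of_injective (actE g).injective _ _).1 hS1.le
    · refine lt_of_le_of_ne ?_ fun h => hS2.ne (by rw [h]; rfl)
      exact (Submodule.map_le_map_iff_of_injective (actE g).injective _ _).1 hS2.le
  per := shiftS_chainM g
  bdd a := by
    obtain ⟨c, hc⟩ := exists_act_low_le g
    obtain ⟨c', hc'⟩ := exists_act_low_le g⁻¹
    refine ⟨max (a + c) (c' - a), ?_, (hc a).trans (low_mono (le_max_left _ _))⟩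
    intro f hf
    refine ⟨act (g⁻¹ : ↥(U n p)).1.1 f, ?_, act_act_inv g f⟩
    exact low_mono (by omega) (hc' _ (mem_map_of_mem hf))
  norm := Finset.sum_eq_zero fun a _ => by rw [jump_chainM, sub_self]

theorem pot_chamberOf (g : ↥(U n p)) : (chamberOf g).pot (pos (ZMod p) n) = 0 := by
  have h : ((chamberOf g).pot (pos (ZMod p) n) : ℤ) = 0 := by
    rw [Chamber.cast_pot]
    refine Finset.sum_eq_zero fun a _ => ?_
    show ((1 : ℤ) * ChainOn.jumpAt (pos (ZMod p) n).toFilt (chainM g) a - a) ^ 2 = 0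
    rw [jump_chainM, one_mul, sub_self, zero_pow two_ne_zero]
  exact_mod_cast h

theorem agree_chamberOf (T : Finset (Fin n)) (g h : ↥(U n p)) :
    Chamber.Agree T (chamberOf g) (chamberOf h) ↔ g⁻¹ * h ∈ Vale.Agent.P067.K n p T := by
  have key : ∀ t : Fin n, chainM g ((t : ℕ) : ℤ) = chainM h ((t : ℕ) : ℤ) ↔
      DegCond t (g⁻¹ * h) := by
    intro t
    have hle : ∀ g h : ↥(U n p), chainM h ((t : ℕ) : ℤ) ≤ chainM g ((t : ℕ) : ℤ) ↔
        DegCond t (g⁻¹ * h) := by
      intro g h
      rw [show DegCond t (g⁻¹ * h) ↔ DegCondM t (g⁻¹ * h : ↥(U n p)).1.1 from Iff.rfl,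
        ← act_low_le_iff, Subgroup.coe_mul, Matrix.SpecialLinearGroup.coe_mul, act_mul,
        Submodule.map_comp, chainM, chainM]
      constructor
      · intro hl
        refine (map_mono hl).trans ?_
        rintro _ ⟨_, ⟨f, hf, rfl⟩, rfl⟩
        rw [show act (g⁻¹ : ↥(U n p)).1.1 (act g.1.1 f) = f from (actE g).symm_apply_apply f]
        exact hf
      · intro hl
        rintro f hf
        exact ⟨_, hl (mem_map_of_mem hf), act_act_inv g f⟩
    constructor
    · intro he
      exact (hle g h).1 he.ge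
    · intro hd
      refine le_antisymm ((hle h g).2 ?_) ((hle g h).2 hd)
      have := degCond_inv hd
      rwa [mul_inv_rev, inv_inv] at this
  exact ⟨fun hA t ht => (key t).1 (hA t ht), fun hK t ht => (key t).2 (hK t ht)⟩

omit [NeZero n] in
theorem eq_one_of_forall_degCond {g : ↥(U n p)} (h : ∀ a, DegCond a g) : g = 1 := by
  refine Subtype.ext (Matrix.SpecialLinearGroup.ext (A := g.1) (B := 1) fun i j => ?_)
  rw [Matrix.SpecialLinearGroup.coe_one]
  refine Polynomial.ext fun k => ?_
  by_cases hk : k = 0 ∧ i ≤ j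
  · obtain ⟨rfl, hij⟩ := hk
    rcases hij.lt_or_eq with hlt | rfl
    · rw [(coeff_zero_of_mem_U g i j).1 hlt, Matrix.one_apply_ne hlt.ne, coeff_zero]
    · rw [(coeff_zero_of_mem_U g i i).2 rfl, Matrix.one_apply_eq, coeff_one_zero]
  · have h0 : (g.1.1 i j).coeff k = 0 := by
      by_contra hne
      have h1 := h i i j k hne
      have h2 := h j i j k hne
      simp only [Fin.lt_def, Fin.le_def] at h1 h2 hk
      split_ifs at h1 h2 <;> omega
    rw [h0, Matrix.one_apply]
    split_ifs with he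
    · subst he
      rw [coeff_one, if_neg fun e => hk ⟨e, le_rfl⟩]
    · rw [coeff_zero]

theorem chamberOf_injective : Function.Injective (chamberOf (n := n) (p := p)) := by
  intro g h he
  have h1 : Chamber.Agree Finset.univ (chamberOf g) (chamberOf h) := by
    intro t _
    rw [he]
  have h2 := (agree_chamberOf _ g h).1 h1
  exact inv_mul_eq_one.1 (eq_one_of_forall_degCond fun a => h2 a (Finset.mem_univ a))

variable {x : Chamber (ZMod p) n}

omit [NeZero n] in
theorem chamber_le {c d : ℤ} (hcd : c ≤ d) : x.M c ≤ x.M d :=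
  (x.chainOn c d).le le_rfl hcd le_rfl

theorem inf_high_eq_bot (hr : ∀ a, x.rel (pos (ZMod p) n) a = a) {a b : ℤ} (hab : a ≤ b) :
    x.M a ⊓ high (ZMod p) b = ⊥ := by
  have hn : (0 : ℤ) < n := by exact_mod_cast NeZero.pos n
  rw [eq_bot_iff]
  intro f hf
  obtain ⟨k, -, hk⟩ := x.bdd a
  obtain ⟨B, hB⟩ := exists_bound_support f
  obtain ⟨J, hJ⟩ : ∃ J : ℕ, k + B ≤ J := ⟨(k + B).toNat, Int.self_le_toNat _⟩
  have hJn : (J : ℤ) ≤ (J : ℤ) * n := le_mul_of_one_le_right (by omega) (by omega)
  have hb : x.M a ⊓ high (ZMod p) b ≤ x.M (a + -(J : ℤ) * n) := by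
    refine ChainOn.inf_le_of_forall_lt (F := (pos (ZMod p) n).toFilt)
      (x.chainOn (a + -(J : ℤ) * n) a) (x.sep _ _ _) le_rfl (by rw [neg_mul]; omega) le_rfl
      fun e _ he => ?_
    rw [Chamber.jumpAt_eq, hr]
    show (1 : ℤ) * e < b
    omega
  have hlow : x.M (a + -(J : ℤ) * n) ≤ low (ZMod p) (k + -(J : ℤ) * n) := by
    rw [x.per_mul, ← shiftS_low]
    exact shiftS_le _ hk
  have := mem_low.1 (hlow (hb hf))
  rw [Submodule.mem_bot]
  ext y
  rw [Finsupp.zero_apply]
  by_contra hy
  obtain ⟨h1, -⟩ := hB y hy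
  exact hy (this y (by rw [neg_mul]; omega))

theorem exists_basis_vec (hr : ∀ a, x.rel (pos (ZMod p) n) a = a) (a : ℤ) :
    ∃ v ∈ x.M (a + 1), v ∈ high (ZMod p) a ∧ v a = 1 := by
  obtain ⟨v, hv, hvQ, hvA, -⟩ :=
    Filt.exists_jump_elem (x.cov a) (x.sep (pos (ZMod p) n) a (a + 1))
  have hj : (pos (ZMod p) n).toFilt.jump (x.M a) (x.M (a + 1)) = a := by
    have := x.jumpAt_eq (pos (ZMod p) n) a
    rw [hr] at this
    exact this.trans (one_mul a)
  rw [hj] at hvQ
  have hne : v a ≠ 0 := by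
    intro h0
    have h1 : v ∈ x.M (a + 1) ⊓ high (ZMod p) (a + 1) := ⟨hv, mem_high.2 fun y hy => by
      rcases (show y = a ∨ y < a by omega) with rfl | hy'
      · exact h0
      · exact mem_high.1 hvQ y hy'⟩
    rw [inf_high_eq_bot hr le_rfl, Submodule.mem_bot] at h1
    exact hvA (h1 ▸ zero_mem _)
  exact ⟨(v a)⁻¹ • v, Submodule.smul_mem _ _ hv, Submodule.smul_mem _ _ hvQ, by
    simp [inv_mul_cancel₀ hne]⟩

theorem colVec_ofFun {v : Fin n → Vec (ZMod p)} (hv : ∀ j, v j ∈ high (ZMod p) 0) :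
    ∃ g : Matrix (Fin n) (Fin n) (ZMod p)[X], ∀ j, colVec g j = v j := by
  classical
  obtain ⟨B, hB⟩ : ∃ B : ℕ, ∀ j y, v j y ≠ 0 → y < B := by
    choose k hk using fun j => exists_bound_support (v j)
    refine ⟨∑ j, (k j).toNat, fun j y hy => ?_⟩
    have h1 := (hk j y hy).2
    have h2 := Finset.single_le_sum (f := fun j => (k j).toNat) (fun _ _ => Nat.zero_le _)
      (Finset.mem_univ j)
    omega
  refine ⟨Matrix.of fun i j => ∑ k ∈ Finset.range B, monomial k (v j ((i : ℤ) + n * k)),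
    fun j => ?_⟩
  ext y
  rcases lt_or_ge y 0 with hy | hy
  · rw [colVec_apply_neg _ _ hy, mem_high.1 (hv j) y hy]
  · obtain ⟨i, k, rfl⟩ := exists_pos_eq (n := n) hy
    rw [colVec_apply, Matrix.of_apply, Polynomial.finsetSum_coeff]
    simp only [coeff_monomial, Finset.sum_ite_eq', Finset.mem_range]
    by_cases hk : k < B
    · rw [if_pos hk]
    · rw [if_neg hk]
      by_contra hne
      have h1 := hB j _ (Ne.symm hne)
      have : (k : ℤ) ≤ (n : ℤ) * k :=
        le_mul_of_one_le_left (by omega) (by exact_mod_cast NeZero.pos n)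
      omega

theorem exists_chamberOf (hp : x.pot (pos (ZMod p) n) = 0) : ∃ g, chamberOf g = x := by
  have hn : (0 : ℤ) < n := by exact_mod_cast NeZero.pos n
  obtain ⟨-, hr⟩ := Chamber.desc_empty_of_pot _ hp
  choose v hv1 hv2 hv3 using exists_basis_vec hr
  have huniq : ∀ a, ∀ w ∈ x.M (a + 1), w ∈ high (ZMod p) a → w a = 1 → w = v a := by
    intro a w hw1 hw2 hw3
    have h1 : w - v a ∈ x.M (a + 1) ⊓ high (ZMod p) (a + 1) :=
      ⟨sub_mem hw1 (hv1 a), mem_high.2 fun y hy => by
        rcases (show y = a ∨ y < a by omega) with rfl | hy'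
        · simp [hw3, hv3]
        · simp [mem_high.1 hw2 y hy', mem_high.1 (hv2 a) y hy']⟩
    rw [inf_high_eq_bot hr le_rfl, Submodule.mem_bot, sub_eq_zero] at h1
    exact h1
  obtain ⟨G, hG⟩ := colVec_ofFun (v := fun j : Fin n => v ((j : ℕ) : ℤ))
    (fun j => high_anti (by omega) (hv2 _))
  have hGe : ∀ m, act G (Finsupp.single m 1) = v m := by
    intro m
    obtain ⟨j, l, rfl⟩ := exists_split (n := n) m
    rw [act_single_one, hG]
    refine huniq _ _ ?_ ?_ ?_
    · rw [show (j : ℤ) + n * l + 1 = ((j : ℕ) : ℤ) + 1 + l * n by ring, x.per_mul]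
      exact mem_map_of_mem (hv1 _)
    · refine mem_high.2 fun y hy => ?_
      rw [shift_apply]
      exact mem_high.1 (hv2 _) _ (by rw [mul_comm l]; omega)
    · rw [shift_apply, show (j : ℤ) + n * l - l * n = ((j : ℕ) : ℤ) by ring]
      exact hv3 _
  have hspan : ∀ (k : ℕ) (c b : ℤ), c ≤ b + k → ∀ f ∈ x.M c ⊓ high (ZMod p) b,
      f ∈ (low (ZMod p) c ⊓ high (ZMod p) b).map (act G) := by
    intro k
    induction k with
    | zero =>
      intro c b hcb f hf
      rw [inf_high_eq_bot hr (by simpa using hcb), Submodule.mem_bot] at hf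
      exact hf ▸ zero_mem _
    | succ k ih =>
      intro c b hcb f hf
      rcases le_or_gt c b with hle | hlt
      · rw [inf_high_eq_bot hr hle, Submodule.mem_bot] at hf
        exact hf ▸ zero_mem _
      · have h1 : f - f b • v b ∈ x.M c ⊓ high (ZMod p) (b + 1) := by
          refine ⟨sub_mem hf.1 (smul_mem _ _ (chamber_le (by omega) (hv1 b))),
            mem_high.2 fun y hy => ?_⟩
          rcases (show y = b ∨ y < b by omega) with rfl | hy'
          · simp [hv3]
          · simp [mem_high.1 hf.2 y hy', mem_high.1 (hv2 b) y hy']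
        obtain ⟨u, hu, he⟩ := ih c (b + 1) (by omega) _ h1
        refine ⟨u + f b • Finsupp.single b 1, add_mem ⟨hu.1, high_anti (by omega) hu.2⟩
          (smul_mem _ _ ⟨single_mem_low _ hlt, single_mem_high _ le_rfl⟩), ?_⟩
        rw [map_add, map_smul, he, hGe, sub_add_cancel]
  have hmap : ∀ c, (low (ZMod p) c).map (act G) = x.M c := by
    intro c
    refine le_antisymm (act_le (fun m => m < c) (fun f hf m hm => ?_) fun m hm => ?_) fun f hf => ?_
    · by_contra h
      exact hm (mem_low.1 hf m (not_lt.1 h))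
    · rw [hGe]
      exact chamber_le (by omega) (hv1 m)
    · obtain ⟨B, hB⟩ := exists_bound_support f
      have hfb : f ∈ high (ZMod p) (-B) := mem_high.2 fun y hy => by
        by_contra h
        have := (hB y h).1
        omega
      obtain ⟨u, hu, he⟩ := hspan (c + B).toNat c (-B) (by omega) f ⟨hf, hfb⟩
      exact ⟨u, hu.1, he⟩
  have hex : ∀ j : Fin n, ∃ w ∈ high (ZMod p) ((j : ℕ) : ℤ),
      act G w = Finsupp.single ((j : ℕ) : ℤ) 1 := by
    intro j
    obtain ⟨k, hk, -⟩ := x.bdd 0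
    obtain ⟨L, hL⟩ : ∃ L : ℕ, ((j : ℕ) : ℤ) < -k + L := ⟨((j : ℕ) + k + 1 : ℤ).toNat, by omega⟩
    have hLn : (L : ℤ) ≤ (L : ℤ) * n := le_mul_of_one_le_right (by omega) (by omega)
    have hmem : Finsupp.single ((j : ℕ) : ℤ) (1 : ZMod p) ∈ x.M (0 + (L : ℤ) * n) := by
      rw [x.per_mul]
      refine shiftS_le _ hk ?_
      rw [shiftS_low]
      exact single_mem_low _ (by omega)
    obtain ⟨w, hw, he⟩ := hspan (0 + (L : ℤ) * n - ((j : ℕ) : ℤ)).toNat (0 + (L : ℤ) * n)
      ((j : ℕ) : ℤ) (by omega) _ ⟨hmem, single_mem_high _ le_rfl⟩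
    exact ⟨w, hw.2, he⟩
  choose w hw1 hw2 using hex
  obtain ⟨H, hH⟩ := colVec_ofFun (v := w) (fun j => high_anti (by omega) (hw1 j))
  have hGH : G * H = 1 := colVec_injective fun j => by rw [← act_colVec, hH, hw2, colVec_one]
  have hG0 : ∀ i j : Fin n, (i < j → (G i j).coeff 0 = 0) ∧ (i = j → (G i j).coeff 0 = 1) := by
    intro i j
    rw [← colVec_apply, hG, Nat.cast_zero, mul_zero, add_zero]
    refine ⟨fun h => mem_high.1 (hv2 _) _ (by exact_mod_cast h), fun h => ?_⟩
    rw [h]
    exact hv3 _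
  have hdet : G.det = 1 := by
    obtain ⟨r, -, hr'⟩ := Polynomial.isUnit_iff.1 (IsUnit.of_mul_eq_one H.det
      (by rw [← Matrix.det_mul, hGH, Matrix.det_one]))
    have h1 : constantCoeff G.det = 1 := by
      have htri : (constantCoeff.mapMatrix G).BlockTriangular OrderDual.toDual :=
        fun i j hij => (hG0 i j).1 hij
      rw [RingHom.map_det, Matrix.det_of_isLowerTriangular _ htri]
      exact Finset.prod_eq_one fun i _ => (hG0 i i).2 rfl
    rw [← hr', constantCoeff_apply, coeff_C_zero] at h1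
    rw [← hr', h1, map_one]
  refine ⟨⟨⟨G, hdet⟩, hG0⟩, ?_⟩
  have hM : (chamberOf (⟨⟨G, hdet⟩, hG0⟩ : ↥(U n p))).M = x.M := funext hmap
  generalize hy : chamberOf (⟨⟨G, hdet⟩, hG0⟩ : ↥(U n p)) = y at hM
  cases x
  cases y
  simp only at hM
  subst hM
  rfl

end group

theorem bridge_ok : BridgeStatement := by
  intro n hn p hp
  refine ⟨chamberOf, chamberOf_injective, fun x => ⟨exists_chamberOf, ?_⟩,
    fun T g h => agree_chamberOf T g h⟩
  rintro ⟨g, rfl⟩
  exact pot_chamberOf g

end Vale.Agent.P067
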