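import Vale.Agent.P067.Z.Chamber

/-! Descents lower the potential; chambers without descents in a residue have the same position. -/

namespace Vale.Agent.P067

open Submodule

variable {K : Type} [Field K] {n : ℕ}

theorem exists_swap {V : Type*} [AddCommGroup V] [Module K V] {F : Filt K V}
    {M : ℤ → Submodule K V} {p : ℤ} (hM : ChainOn M p (p + 2)) (hs : F.Sep (M p) (M (p + 2))) :
    ∃ N, M p ⋖ N ∧ N ⋖ M (p + 2) ∧ F.jump (M p) N = ChainOn.jumpAt F M (p + 1) ∧
      F.jump N (M (p + 2)) = ChainOn.jumpAt F M p := by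
  have e2 : p + 1 + 1 = p + 2 := by ring
  have c1 : M p ⋖ M (p + 1) := hM p le_rfl (by omega)
  have c2 : M (p + 1) ⋖ M (p + 2) := by
    have := hM (p + 1) (by omega) (by omega)
    rwa [e2] at this
  have s1 : F.Sep (M p) (M (p + 1)) := hs.mono le_rfl c2.le
  have s2 : F.Sep (M (p + 1)) (M (p + 2)) := hs.mono c1.le le_rfl
  obtain ⟨u, hu, huQ, huA, hspan1⟩ := Filt.exists_jump_elem c1 s1
  obtain ⟨v, hv, hvQ, hvA, hspan2⟩ := Filt.exists_jump_elem c2 s2
  set j1 := ChainOn.jumpAt F M p with hj1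
  set j2 := ChainOn.jumpAt F M (p + 1) with hj2
  have hj2' : F.jump (M (p + 1)) (M (p + 2)) = j2 := by rw [hj2, ChainOn.jumpAt, e2]
  have hj1' : F.jump (M p) (M (p + 1)) = j1 := rfl
  rw [hj2'] at hvQ
  rw [hj1'] at huQ
  have hne : j1 ≠ j2 := hM.jump_ne_of_lt hs le_rfl (by omega) (by omega)
  have main : ∀ w ∈ M (p + 2), w ∉ M (p + 1) → w ∈ F.Q j2 → (j1 < j2 ∨ w ∈ F.Q j2) →
      M p ⋖ M p ⊔ (K ∙ w) ∧ M p ⊔ (K ∙ w) ⋖ M (p + 2) ∧ M p ⊔ (K ∙ w) ≠ M (p + 1) := by
    intro w hw hw' _ _
    have h1 : M p ⋖ M p ⊔ (K ∙ w) := by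
      refine ⟨left_lt_sup.2 fun hle => hw' (c1.le (hle (mem_span_singleton_self w))),
        fun U h1 h2 => ?_⟩
      obtain ⟨z, hz, hz'⟩ := SetLike.exists_of_lt h1
      obtain ⟨a, ha, b, hb, rfl⟩ := mem_sup.1 (h2.le hz)
      obtain ⟨α, rfl⟩ := mem_span_singleton.1 hb
      have hα : α ≠ 0 := by rintro rfl; simp [ha] at hz'
      have hαw : α • w ∈ U := by simpa using sub_mem hz (h1.le ha)
      have hwU : w ∈ U := by simpa [smul_smul, inv_mul_cancel₀ hα] using smul_mem _ α⁻¹ hαw
      exact h2.not_ge (sup_le h1.le ((span_singleton_le_iff_mem _ _).2 hwU))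
    have hne' : M p ⊔ (K ∙ w) ≠ M (p + 1) := fun he =>
      hw' (he ▸ mem_sup_right (mem_span_singleton_self w))
    have hle : M p ⊔ (K ∙ w) ≤ M (p + 2) :=
      sup_le (c1.le.trans c2.le) ((span_singleton_le_iff_mem _ _).2 hw)
    refine ⟨h1, ⟨lt_of_le_not_ge hle fun hge => ?_, fun U hU hU' => ?_⟩, hne'⟩
    · have hlt : M (p + 1) < M p ⊔ (K ∙ w) := lt_of_lt_of_le c2.lt hge
      exact h1.2 c1.lt hlt
    · have hu' : u ∈ M p ⊔ (K ∙ w) ⊔ (K ∙ u) := mem_sup_right (mem_span_singleton_self u)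
      have htop : M (p + 2) ≤ M p ⊔ (K ∙ w) ⊔ (K ∙ u) := by
        have hb : M (p + 1) ≤ M p ⊔ (K ∙ w) ⊔ (K ∙ u) := by
          rw [hspan1]
          exact sup_le (le_sup_left.trans le_sup_left) le_sup_right
        have hlt : M (p + 1) < M p ⊔ (K ∙ w) ⊔ (K ∙ u) :=
          lt_of_le_not_ge hb fun hle' =>
            hw' (hle' (mem_sup_left (mem_sup_right (mem_span_singleton_self w))))
        have hle2 : M p ⊔ (K ∙ w) ⊔ (K ∙ u) ≤ M (p + 2) :=
          sup_le hle ((span_singleton_le_iff_mem _ _).2 (c2.le hu))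
        exact ((c2.eq_or_eq hb hle2).resolve_left hlt.ne').ge
      obtain ⟨z, hz, hz'⟩ := SetLike.exists_of_lt hU
      obtain ⟨a, ha, b, hb, rfl⟩ := mem_sup.1 (htop (hU'.le hz))
      obtain ⟨α, rfl⟩ := mem_span_singleton.1 hb
      have hα : α ≠ 0 := by rintro rfl; simp [ha] at hz'
      have hαu : α • u ∈ U := by simpa using sub_mem hz (hU.le ha)
      have huU : u ∈ U := by simpa [smul_smul, inv_mul_cancel₀ hα] using smul_mem _ α⁻¹ hαu
      exact hU'.not_ge (htop.trans (sup_le hU.le ((span_singleton_le_iff_mem _ _).2 huU)))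
  have finish : ∀ w ∈ M (p + 2), w ∉ M (p + 1) → w ∈ F.Q j2 →
      ∃ N, M p ⋖ N ∧ N ⋖ M (p + 2) ∧ F.jump (M p) N = j2 ∧ F.jump N (M (p + 2)) = j1 := by
    intro w hw hw' hwQ
    obtain ⟨h1, h2, h3⟩ := main w hw hw' hwQ (Or.inr hwQ)
    set N := M p ⊔ (K ∙ w) with hN
    set M' : ℤ → Submodule K V := Function.update M (p + 1) N with hM'
    have ep : M' p = M p := Function.update_of_ne (by omega) _ _
    have eq2 : M' (p + 2) = M (p + 2) := Function.update_of_ne (by omega) _ _
    have eq1 : M' (p + 1) = N := Function.update_self _ _ _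
    have hchain : ChainOn M' p (p + 2) := by
      intro c hc hc'
      rcases (show c = p ∨ c = p + 1 by omega) with rfl | rfl
      · rw [ep, eq1]; exact h1
      · rw [e2, eq1, eq2]; exact h2
    have hs' : F.Sep (M' p) (M' (p + 2)) := by rwa [ep, eq2]
    have g1 : ChainOn.jumpAt F M' p = F.jump (M p) N := by rw [ChainOn.jumpAt, ep, eq1]
    have g2 : ChainOn.jumpAt F M' (p + 1) = F.jump N (M (p + 2)) := by
      rw [ChainOn.jumpAt, e2, eq1, eq2]
    have mem : ∀ c, p ≤ c → c < p + 2 →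
        ChainOn.jumpAt F M' c = j1 ∨ ChainOn.jumpAt F M' c = j2 := by
      intro c hc hc'
      have h := hchain.inJumps_of_jump hs' hc hc'
      rw [ep, eq2] at h
      obtain ⟨d, hd, hd', he⟩ := hM.exists_jump_of_inJumps hs (by omega) h
      rcases (show d = p ∨ d = p + 1 by omega) with rfl | rfl
      · exact Or.inl he.symm
      · exact Or.inr he.symm
    have hge : j2 ≤ F.jump (M p) N := (Filt.isJump_jump h1 (hs.mono le_rfl h2.le)).le
      fun hle => h1.lt.not_ge (sup_le le_rfl ((span_singleton_le_iff_mem _ _).2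
        (hle ⟨mem_sup_right (mem_span_singleton_self w), hwQ⟩)))
    have first : F.jump (M p) N = j2 := by
      rcases mem p le_rfl (by omega) with h | h
      · exfalso
        rw [g1] at h
        have h2' : F.jump N (M (p + 2)) = j2 := by
          rcases mem (p + 1) (by omega) (by omega) with h' | h'
          · exact absurd (g1.trans (h.trans h'.symm))
              (hchain.jump_ne_of_lt hs' le_rfl (by omega) (by omega))
          · rw [g2] at h'; exact h'
        have hlt : j2 < j1 := by omega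
        have a1 := hchain.eq_sup_of_split hs' (c := p + 1) (b := j1) (by omega) (by omega)
          (fun e he he' => by rw [show e = p by omega, g1, h])
          (fun e he he' => by rw [show e = p + 1 by omega, g2, h2']; exact hlt)
        have a2 := hM.eq_sup_of_split hs (c := p + 1) (b := j1) (by omega) (by omega)
          (fun e he he' => by rw [show e = p by omega])
          (fun e he he' => by rw [show e = p + 1 by omega]; exact hlt)
        rw [eq1, ep, eq2, ← a2] at a1
        exact h3 a1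
      · rw [g1] at h; exact h
    refine ⟨N, h1, h2, first, ?_⟩
    rcases mem (p + 1) (by omega) (by omega) with h | h
    · rw [g2] at h; exact h
    · exact absurd (g1.trans (first.trans h.symm))
        (hchain.jump_ne_of_lt hs' le_rfl (by omega) (by omega))
  rcases lt_or_gt_of_ne hne with hlt | hgt
  · exact finish v hv hvA hvQ
  · refine finish (u + v) (add_mem (c2.le hu) hv) (fun h => hvA ?_)
      (add_mem (F.anti hgt.le huQ) hvQ)
    simpa using sub_mem h hu

namespace Chamber

variable [NeZero n] (x : Chamber K n) (F : PerFilt K n)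

theorem agree_extend {a₀ : ℤ} {G : ℤ → Submodule K (Vec K)}
    (hG : ChainOn G a₀ (a₀ + n)) (h0 : G a₀ = x.M a₀) (h1 : G (a₀ + n) = x.M (a₀ + n))
    {T : Finset (Fin n)}
    (hT : ∀ d, a₀ ≤ d → d < a₀ + n → typ d ∈ T → G d = x.M d) :
    Agree T x (x.extend a₀ G hG h0 h1) := by
  have hn : (0 : ℤ) < n := by exact_mod_cast NeZero.pos n
  intro t ht
  set d := a₀ + (((t : ℕ) : ℤ) - a₀) % n with hd
  have hd1 := Int.emod_nonneg (((t : ℕ) : ℤ) - a₀) hn.ne'
  have hd2 := Int.emod_lt_of_pos (((t : ℕ) : ℤ) - a₀) hn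
  have e : ((t : ℕ) : ℤ) = d + (((t : ℕ) : ℤ) - a₀) / n * n := by
    rw [hd, add_assoc, Int.emod_add_ediv_mul]; ring
  have htyp : typ (n := n) d ∈ T := by
    rw [← typ_add_mul d ((((t : ℕ) : ℤ) - a₀) / n), ← e, typ_natCast]
    exact ht
  rw [e, x.per_mul, per_mul, x.extend_apply hG h0 h1 (by omega) (by omega),
    hT d (by omega) (by omega) htyp]

theorem exists_pot_lt {T : Finset (Fin n)} (h : ¬ x.desc F ⊆ T) :
    ∃ y : Chamber K n, Agree T x y ∧ y.pot F < x.pot F := by
  obtain ⟨t, ht, htT⟩ := Finset.not_subset.1 h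
  set c : ℤ := ((t : ℕ) : ℤ) with hc
  have hdesc : x.rel F c < x.rel F (c - 1) := (Finset.mem_filter.1 ht).2
  have hn2 : 2 ≤ n := by
    by_contra hn
    have : n = 1 := by have := NeZero.pos n; omega
    have hper := x.rel_per F (c - 1)
    rw [show (n : ℤ) = 1 by omega, show c - 1 + 1 = c by ring] at hper
    omega
  obtain ⟨p, hp⟩ : ∃ p, c = p + 1 := ⟨c - 1, by ring⟩
  rw [hp, show p + 1 - 1 = p by ring] at hdesc
  obtain ⟨N, hN1, hN2, hj1, hj2⟩ := exists_swap (x.chainOn p (p + 2)) (x.sep F p (p + 2))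
  set G : ℤ → Submodule K (Vec K) := Function.update x.M (p + 1) N with hGdef
  have hG : ∀ d, d ≠ p + 1 → G d = x.M d := fun d hd => Function.update_of_ne hd _ _
  have hG1 : G (p + 1) = N := Function.update_self _ _ _
  have hchain : ChainOn G p (p + n) := by
    intro d hd hd'
    rcases (show d = p ∨ d = p + 1 ∨ p + 2 ≤ d by omega) with rfl | rfl | h3
    · rw [hG1, hG d (by omega)]; exact hN1
    · rw [hG1, show p + 1 + 1 = p + 2 by ring, hG (p + 2) (by omega)]; exact hN2
    · rw [hG d (by omega), hG (d + 1) (by omega)]; exact x.cov d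
  have h0 : G p = x.M p := hG p (by omega)
  have h1 : G (p + n) = x.M (p + n) := hG _ (by omega)
  set y := x.extend p G hchain h0 h1 with hy
  refine ⟨y, x.agree_extend hchain h0 h1 fun d hd hd' htyp => hG d fun he => htT ?_, ?_⟩
  · rw [he, ← hp, hc, typ_natCast] at htyp
    exact htyp
  · have val : ∀ d, p ≤ d → d ≤ p + n → y.M d = G d := fun d hd hd' =>
      x.extend_apply hchain h0 h1 hd hd'
    have r1 : y.rel F p = x.rel F (p + 1) := by
      rw [rel, rel, ChainOn.jumpAt, val p le_rfl (by omega), val (p + 1) (by omega) (by omega),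
        h0, hG1, hj1]
    have r2 : y.rel F (p + 1) = x.rel F p := by
      rw [rel, rel, ChainOn.jumpAt, show p + 1 + 1 = p + 2 by ring,
        val (p + 1) (by omega) (by omega), val (p + 2) (by omega) (by omega), hG1,
        hG (p + 2) (by omega), hj2]
    have r3 : ∀ d ∈ Finset.Ico (p + 2) (p + n), y.rel F d = x.rel F d := by
      intro d hd
      rw [Finset.mem_Ico] at hd
      rw [rel, rel, ChainOn.jumpAt, val d (by omega) (by omega),
        val (d + 1) (by omega) (by omega), hG d (by omega), hG (d + 1) (by omega)]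
      rfl
    have split : ∀ f : ℤ → ℤ, ∑ a ∈ Finset.Ico p (p + n), f a =
        f p + (f (p + 1) + ∑ a ∈ Finset.Ico (p + 2) (p + n), f a) := by
      intro f
      rw [show Finset.Ico p (p + n) = insert p (insert (p + 1) (Finset.Ico (p + 2) (p + n))) by
        ext a; simp; omega, Finset.sum_insert (by simp), Finset.sum_insert (by simp)]
    have hper : ∀ (z : Chamber K n) (a k : ℤ),
        (z.rel F (a + k * n) - (a + k * n)) ^ 2 = (z.rel F a - a) ^ 2 := by
      intro z a k; rw [z.rel_per_mul]; ring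
    have : (y.pot F : ℤ) < x.pot F := by
      rw [cast_pot, cast_pot, ← sum_window _ (hper y) p, ← sum_window _ (hper x) p, split, split,
        Finset.sum_congr rfl fun d hd => by rw [r3 d hd], r1, r2]
      nlinarith
    exact_mod_cast this

/-- The last position of a given set of types at or before `a`. -/
theorem exists_le_typ {T : Finset (Fin n)} (hT : T.Nonempty) (a : ℤ) :
    ∃ p ≤ a, typ p ∈ T ∧ ∀ c, p < c → c ≤ a → typ c ∉ T := by
  obtain ⟨t, ht⟩ := hT
  obtain ⟨p, hp, hmax⟩ := Int.exists_greatest_of_bdd (P := fun p => p ≤ a ∧ typ p ∈ T)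
    ⟨a, fun z hz => hz.1⟩
    ⟨((t : ℕ) : ℤ) + (a - ((t : ℕ) : ℤ)) / n * n, by
      have := Int.ediv_mul_le (a - ((t : ℕ) : ℤ)) (b := (n : ℤ))
        (by exact_mod_cast NeZero.ne n)
      omega, by rw [typ_add_mul, typ_natCast]; exact ht⟩
  exact ⟨p, hp.1, hp.2, fun c h1 h2 h3 => by have := hmax c ⟨h2, h3⟩; omega⟩

/-- The first position of a given set of types after `a`. -/
theorem exists_gt_typ {T : Finset (Fin n)} (hT : T.Nonempty) (a : ℤ) :
    ∃ r, a < r ∧ typ r ∈ T ∧ ∀ c, a < c → c < r → typ c ∉ T := by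
  obtain ⟨t, ht⟩ := hT
  have hn : (0 : ℤ) < n := by exact_mod_cast NeZero.pos n
  obtain ⟨r, hr, hmin⟩ := Int.exists_least_of_bdd (P := fun r => a < r ∧ typ r ∈ T)
    ⟨a, fun z hz => hz.1.le⟩
    ⟨((t : ℕ) : ℤ) + ((a - ((t : ℕ) : ℤ)) / n + 1) * n, by
      have h1 := Int.emod_add_ediv_mul (a - ((t : ℕ) : ℤ)) n
      have h2 := Int.emod_lt_of_pos (a - ((t : ℕ) : ℤ)) hn
      linarith, by rw [typ_add_mul, typ_natCast]; exact ht⟩
  exact ⟨r, hr.1, hr.2, fun c h1 h2 h3 => by have := hmin c ⟨h1, h3⟩; omega⟩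

theorem rel_lt_succ {c : ℤ} (hc : typ c ∉ x.desc F) : x.rel F (c - 1) < x.rel F c := by
  rw [mem_desc_iff, not_lt] at hc
  rcases hc.lt_or_eq with h | h
  · exact h
  · have := x.rel_inj F h
    omega

theorem rel_strictMono_gap {p r : ℤ} (h : ∀ c, p < c → c < r → typ c ∉ x.desc F) {a b : ℤ}
    (hpa : p ≤ a) (hab : a < b) (hbr : b < r) : x.rel F a < x.rel F b := by
  obtain ⟨k, rfl⟩ := Int.le.dest (show a + 1 ≤ b by omega)
  induction k with
  | zero =>
    have := x.rel_lt_succ F (h (a + 1) (by omega) (by omega))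
    simpa using this
  | succ k ih =>
    have h2 := x.rel_lt_succ F (h (a + 1 + ((k + 1 : ℕ) : ℤ)) (by omega) hbr)
    rw [show a + 1 + ((k + 1 : ℕ) : ℤ) - 1 = a + 1 + (k : ℤ) by push_cast; ring] at h2
    exact (ih (by omega) (by omega)).trans h2

/-- Chambers of one residue without descents outside it have the same relative position. -/
theorem rel_eq_of_agree {y : Chamber K n} {T : Finset (Fin n)} (hT : T.Nonempty)
    (hxy : Agree T x y) (hx : x.desc F ⊆ T) (hy : y.desc F ⊆ T) (a : ℤ) :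
    x.rel F a = y.rel F a := by
  obtain ⟨p, hpa, hp, hp'⟩ := exists_le_typ hT a
  obtain ⟨r, har, hr, hr'⟩ := exists_gt_typ hT a
  have gap : ∀ z : Chamber K n, z.desc F ⊆ T → ∀ c, p < c → c < r → typ c ∉ z.desc F := by
    intro z hz c h1 h2 h3
    rcases le_or_gt c a with h | h
    · exact hp' c h1 h (hz h3)
    · exact hr' c h h2 (hz h3)
  have him := x.image_rel_eq y F (show p ≤ r by omega) (hxy.eq hp) (hxy.eq hr)
  have rank : ∀ z : Chamber K n, z.desc F ⊆ T → ∀ c, p ≤ c → c < r →
      (((Finset.Ico p r).image (z.rel F)).filter (· < z.rel F c)).card = (c - p).toNat := by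
    intro z hz c h1 h2
    have : ((Finset.Ico p r).image (z.rel F)).filter (· < z.rel F c) =
        (Finset.Ico p c).image (z.rel F) := by
      ext b
      simp only [Finset.mem_filter, Finset.mem_image, Finset.mem_Ico]
      constructor
      · rintro ⟨⟨d, hd, rfl⟩, hlt⟩
        refine ⟨d, ⟨hd.1, ?_⟩, rfl⟩
        by_contra hle
        rcases (not_lt.1 hle).lt_or_eq with h | rfl
        · exact absurd (z.rel_strictMono_gap F (gap z hz) h1 h hd.2) (by omega)
        · exact lt_irrefl _ hlt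
      · rintro ⟨d, hd, rfl⟩
        exact ⟨⟨d, ⟨hd.1, by omega⟩, rfl⟩, z.rel_strictMono_gap F (gap z hz) hd.1 hd.2 h2⟩
    rw [this, Finset.card_image_of_injective _ (fun a b h => z.rel_inj F h), Int.card_Ico]
  have ha : x.rel F a ∈ (Finset.Ico p r).image (y.rel F) :=
    him ▸ Finset.mem_image_of_mem _ (Finset.mem_Ico.2 ⟨hpa, har⟩)
  obtain ⟨c, hc, hce⟩ := Finset.mem_image.1 ha
  rw [Finset.mem_Ico] at hc
  have h1 := rank x hx a hpa har
  have h2 := rank y hy c hc.1 hc.2
  rw [him, ← hce, h2] at h1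
  rw [← hce, show a = c by omega]

omit [NeZero n] in
theorem desc_eq_of_rel {y : Chamber K n} (h : ∀ a, x.rel F a = y.rel F a) :
    x.desc F = y.desc F := by
  simp only [desc, h]

omit [NeZero n] in
theorem pot_eq_of_rel {y : Chamber K n} (h : ∀ a, x.rel F a = y.rel F a) :
    x.pot F = y.pot F := by
  simp only [pot, h]

/-- Without descents the relative position is a translation. -/
theorem rel_eq_add {x : Chamber K n} (h : x.desc F = ∅) :
    ∃ c, ∀ a, x.rel F a = a + c := by
  refine ⟨x.rel F 0, fun a => ?_⟩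
  have mono : ∀ a, x.rel F a + 1 ≤ x.rel F (a + 1) := fun a => by
    have := x.rel_lt_succ F (c := a + 1) (by simp [h])
    rw [show a + 1 - 1 = a by ring] at this
    omega
  have tot : ∀ a : ℤ, ∀ k : ℕ, x.rel F a + k ≤ x.rel F (a + k) := by
    intro a k
    induction k with
    | zero => simp
    | succ k ih =>
      have := mono (a + k)
      push_cast
      rw [← add_assoc, ← add_assoc]
      omega
  have step : ∀ a, x.rel F (a + 1) = x.rel F a + 1 := by
    intro a
    have h1 := mono a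
    have h2 := tot (a + 1) (n - 1)
    have hn := NeZero.pos n
    rw [show a + 1 + ((n - 1 : ℕ) : ℤ) = a + n by omega, x.rel_per] at h2
    omega
  induction a with
  | zero => simp
  | succ k ih => rw [step, ih]; ring
  | pred k ih =>
    have := step (-(k : ℤ) - 1)
    rw [show -(k : ℤ) - 1 + 1 = -(k : ℤ) by ring, ih] at this
    omega

theorem desc_empty_of_pot {x : Chamber K n} (h : x.pot F = 0) :
    x.desc F = ∅ ∧ ∀ a, x.rel F a = a := by
  have hz : ∀ a : ℤ, x.rel F a = a := by
    have h0 : ∑ a ∈ Finset.Ico (0 : ℤ) n, (x.rel F a - a) ^ 2 = 0 := by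
      rw [← cast_pot, h]; rfl
    rw [Finset.sum_eq_zero_iff_of_nonneg fun a _ => sq_nonneg _] at h0
    intro a
    have hn : (0 : ℤ) < n := by exact_mod_cast NeZero.pos n
    have hh := h0 (a % n) (Finset.mem_Ico.2 ⟨Int.emod_nonneg a hn.ne', Int.emod_lt_of_pos a hn⟩)
    rw [sq_eq_zero_iff, sub_eq_zero] at hh
    conv_lhs => rw [← Int.emod_add_ediv_mul a n, x.rel_per_mul, hh]
    exact Int.emod_add_ediv_mul a n
  refine ⟨?_, hz⟩
  rw [Finset.eq_empty_iff_forall_notMem]
  intro t ht
  have := (Finset.mem_filter.1 ht).2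
  rw [hz, hz] at this
  omega

end Chamber

end Vale.Agent.P067
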