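import Vale.Agent.P067.Group
import Vale.Agent.P067.Z.Residue

/-! The interface between the group `U` and the chambers of potential zero. -/

namespace Vale.Agent.P067

/-- `U` acts simply transitively on the chambers of potential zero, and the classes of a set of
types are the cosets of its stabiliser. -/
def BridgeStatement : Prop :=
  ∀ n : ℕ, ∀ _ : NeZero n, ∀ p : ℕ, ∀ _ : Fact p.Prime,
    ∃ e : ↥(U n p) → Chamber (ZMod p) n,
      Function.Injective e ∧
      (∀ x : Chamber (ZMod p) n, x.pot (pos (ZMod p) n) = 0 ↔ ∃ g, e g = x) ∧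
      ∀ T g h, Chamber.Agree T (e g) (e h) ↔ g⁻¹ * h ∈ K n p T

end Vale.Agent.P067
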