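import Vale.Agent.P067.Z.Morse
import Vale.Agent.P067.Z.Residue

/-! The two Morse structures on chambers, and the acyclicity of the whole building. -/

namespace Vale.Agent.P067

open Submodule

variable {K : Type} [Field K] {n : ℕ} [NeZero n]

namespace Chamber

theorem sum_rel_translation {x : Chamber K n} {F : PerFilt K n} {c : ℤ}
    (h : ∀ a, x.rel F a = a + c) :
    ∑ a ∈ Finset.Ico (0 : ℤ) n, (x.rel F a - a) = n * c := by
  simp [h]

theorem rel_eq_self_of_desc_pos {x : Chamber K n} (h : x.desc (pos K n) = ∅) (a : ℤ) :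
    x.rel (pos K n) a = a := by
  obtain ⟨c, hc⟩ := rel_eq_add (F := pos K n) h
  have hs := sum_rel_translation hc
  have h0 : ∑ a ∈ Finset.Ico (0 : ℤ) n, (x.rel (pos K n) a - a) = 0 := by
    refine Eq.trans (Finset.sum_congr rfl fun a _ => ?_) x.norm
    rw [rel]
    show (1 : ℤ) * _ - a = _
    rw [one_mul]
  rw [hs, mul_eq_zero] at h0
  have hn : (n : ℤ) ≠ 0 := by exact_mod_cast NeZero.ne n
  rw [hc, h0.resolve_left hn, add_zero]

theorem pot_eq_zero_of_rel {x : Chamber K n} {F : PerFilt K n} (h : ∀ a, x.rel F a = a) :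
    x.pot F = 0 := by
  simp [pot, h]

theorem isJump_low (a : ℤ) : (pos K n).toFilt.IsJump (low K a) (low K (a + 1)) a := by
  refine ⟨fun hle => ?_, ?_⟩
  · have hm : (Finsupp.single a (1 : K)) ∈ low K (a + 1) ⊓ (pos K n).Q a :=
      ⟨mem_low.2 fun x hx => by simp [show a ≠ x by omega],
        mem_high.2 fun x hx => by simp [hx.ne]⟩
    have := mem_low.1 (hle hm) a le_rfl
    simp at this
  · show low K (a + 1) ⊓ high K (a + 1) ≤ _
    rw [low_inf_high le_rfl]
    exact bot_le

/-- Only the standard chamber has no descent for the filtration by standard lattices. -/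
theorem eq_low_of_desc_neg {x : Chamber K n} (h : x.desc (neg K n) = ∅) (a : ℤ) :
    x.M a = low K a := by
  obtain ⟨c, hc⟩ := rel_eq_add (F := neg K n) h
  have hn : (1 : ℤ) ≤ n := by exact_mod_cast NeZero.pos n
  have key : ∀ a, x.M a = low K (a + c) := by
    intro a
    obtain ⟨k, hk1, hk2⟩ := x.bdd a
    obtain ⟨L, hL⟩ : ∃ L : ℤ, L = max 0 (max (k - a - c) (k + a + c)) := ⟨_, rfl⟩
    have hLn : L ≤ L * n := le_mul_of_one_le_right (by omega) hn
    have hlo : x.M (a + (-L) * n) ≤ low K (a + c) := by
      rw [x.per_mul]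
      refine (shiftS_le _ hk2).trans ?_
      rw [shiftS_low]
      exact low_mono (by rw [neg_mul]; omega)
    have hhi : low K (a + c) ≤ x.M (a + L * n) := by
      rw [x.per_mul]
      refine le_trans ?_ (shiftS_le _ hk1)
      rw [shiftS_low]
      exact low_mono (by omega)
    have hj : ∀ e, ChainOn.jumpAt (neg K n).toFilt x.M e = -(e + c) := fun e => by
      rw [x.jumpAt_eq, hc]
      show (-1 : ℤ) * _ = _
      ring
    have := (x.chainOn (a + (-L) * n) (a + L * n)).eq_sup_of_split (x.sep (neg K n) _ _)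
      (c := a) (b := 1 - (a + c)) (by rw [neg_mul]; omega) (by omega)
      (fun e _ he => by rw [hj]; omega) (fun e he _ => by rw [hj]; omega)
    rw [this, show (neg K n).toFilt.Q (1 - (a + c)) = low K (1 - (1 - (a + c))) from rfl,
      show (1 : ℤ) - (1 - (a + c)) = a + c by ring, inf_eq_right.2 hhi, sup_eq_right.2 hlo]
  have hc0 : c = 0 := by
    have h0 := x.norm
    rw [Finset.sum_congr rfl fun e _ => show ChainOn.jumpAt (pos K n).toFilt x.M e - e = c by
      rw [ChainOn.jumpAt, key, key, show e + 1 + c = e + c + 1 by ring,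
        Filt.IsJump.jump_eq (isJump_low (n := n) (e + c))]
      ring] at h0
    simp at h0
    rcases h0 with h0 | h0
    · exact absurd h0 (NeZero.ne n)
    · exact h0
  rw [key, hc0, add_zero]

omit [NeZero n] in
theorem rel_neg_low {x : Chamber K n} (h : ∀ a, x.M a = low K a) (a : ℤ) :
    x.rel (neg K n) a = a := by
  have : (neg K n).toFilt.IsJump (low K a) (low K (a + 1)) (-a) := by
    refine ⟨fun hle => ?_, ?_⟩
    · have hm : (Finsupp.single a (1 : K)) ∈ low K (a + 1) ⊓ (neg K n).Q (-a) :=
        ⟨mem_low.2 fun y hy => by simp [show a ≠ y by omega],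
          mem_low.2 fun y hy => by simp [show a ≠ y by omega]⟩
      have := mem_low.1 (hle hm) a le_rfl
      simp at this
    · exact inf_le_right.trans (low_mono (by omega))
  rw [rel, ChainOn.jumpAt, h, h, this.jump_eq]
  show (-1 : ℤ) * -a = a
  ring

theorem agree_morse (F : PerFilt K n)
    (hbase : ∀ x : Chamber K n, x.desc F = ∅ → x.pot F = 0) :
    Morse (Agree (K := K) (n := n)) (fun x => x.pot F) (fun x => x.desc F) where
  refl := fun _ _ _ _ => rfl
  symm := fun h t ht => (h t ht).symm
  trans := fun h h' t ht => (h t ht).trans (h' t ht)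
  anti := fun hST h t ht => h t (hST ht)
  desc := fun {x T} hx => x.exists_pot_lt F hx
  uniq := by
    intro T x y hxy hx hy
    rcases T.eq_empty_or_nonempty with rfl | hT
    · rw [Finset.subset_empty] at hx hy
      exact ⟨(hbase x hx).trans (hbase y hy).symm, hx.trans hy.symm⟩
    · have := fun a => x.rel_eq_of_agree F hT hxy hx hy a
      exact ⟨x.pot_eq_of_rel F this, x.desc_eq_of_rel F this⟩

theorem morse_pos : Morse (Agree (K := K) (n := n)) (fun x => x.pot (pos K n))
    (fun x => x.desc (pos K n)) :=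
  agree_morse _ fun _ h => pot_eq_zero_of_rel (rel_eq_self_of_desc_pos h)

theorem morse_neg : Morse (Agree (K := K) (n := n)) (fun x => x.pot (neg K n))
    (fun x => x.desc (neg K n)) :=
  agree_morse _ fun _ h => pot_eq_zero_of_rel (rel_neg_low (eq_low_of_desc_neg h))

theorem eq_of_agree_neg {x y : Chamber K n} (hpot : 0 < x.pot (neg K n))
    (hxy : Agree (x.desc (neg K n)) x y) (hy : y.desc (neg K n) ⊆ x.desc (neg K n)) (a : ℤ) :
    x.M a = y.M a := by
  have hT : (x.desc (neg K n)).Nonempty := Finset.nonempty_iff_ne_empty.2 fun h => by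
    rw [pot_eq_zero_of_rel (rel_neg_low (eq_low_of_desc_neg h))] at hpot
    omega
  obtain ⟨p, hpa, hp, hp'⟩ := exists_le_typ hT (a - 1)
  obtain ⟨r, har, hr, hr'⟩ := exists_gt_typ hT (a - 1)
  have hrel := fun e => x.rel_eq_of_agree (neg K n) hT hxy subset_rfl hy e
  have gap : ∀ c, p < c → c < r → typ c ∉ x.desc (neg K n) := fun c h1 h2 h3 => by
    rcases le_or_gt c (a - 1) with h | h
    · exact hp' c h1 h h3
    · exact hr' c h h2 h3
  have hj : ∀ e, ChainOn.jumpAt (neg K n).toFilt x.M e = -x.rel (neg K n) e := fun e => by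
    rw [jumpAt_eq]; show (-1 : ℤ) * _ = _; ring
  have hj' : ∀ e, ChainOn.jumpAt (neg K n).toFilt y.M e = -x.rel (neg K n) e := fun e => by
    rw [jumpAt_eq, ← hrel]; show (-1 : ℤ) * _ = _; ring
  have lo : ∀ e, p ≤ e → e < a → x.rel (neg K n) e ≤ x.rel (neg K n) (a - 1) := fun e h1 h2 => by
    rcases (show e ≤ a - 1 by omega).lt_or_eq with h | h
    · exact (x.rel_strictMono_gap _ gap h1 h har).le
    · rw [h]
  have hi : ∀ e, a ≤ e → e < r → x.rel (neg K n) (a - 1) < x.rel (neg K n) e := fun e h1 h2 =>
    x.rel_strictMono_gap _ gap hpa (by omega) h2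
  rw [(x.chainOn p r).eq_sup_of_split (x.sep (neg K n) _ _) (c := a)
      (b := -x.rel (neg K n) (a - 1)) (by omega) (by omega)
      (fun e h1 h2 => by rw [hj]; have := lo e h1 h2; omega)
      (fun e h1 h2 => by rw [hj]; have := hi e h1 h2; omega),
    (y.chainOn p r).eq_sup_of_split (y.sep (neg K n) _ _) (c := a)
      (b := -x.rel (neg K n) (a - 1)) (by omega) (by omega)
      (fun e h1 h2 => by rw [hj']; have := lo e h1 h2; omega)
      (fun e h1 h2 => by rw [hj']; have := hi e h1 h2; omega),
    hxy.eq hp, hxy.eq hr]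

theorem linkExact_neg (x : Chamber K n) (hpot : 0 < x.pot (neg K n)) :
    LinkExact (Agree (K := K) (n := n)) (fun y => y.desc (neg K n)) x := by
  intro m hDm hmn φ hinv hd
  obtain ⟨t0, -, ht0⟩ := Finset.exists_mem_notMem_of_card_lt_card
    (s := x.desc (neg K n)) (t := (Finset.univ : Finset (Fin n)))
    (lt_of_le_of_lt hDm (by rwa [Finset.card_univ]))
  refine ⟨fun T y => if t0 ∈ T then 0 else φ (insert t0 T) y, fun T y z hT hy hz hr => ?_,
    fun T y hT hcard hy hyD => ?_⟩
  · show ite _ _ _ = ite _ _ _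
    rw [hinv (insert t0 T) y z (hT.trans (Finset.subset_insert _ _)) hy hz fun t _ => ?_]
    rw [← eq_of_agree_neg hpot hy.1 hy.2, ← eq_of_agree_neg hpot hz.1 hz.2]
  · by_cases ht : t0 ∈ T
    · rw [Finset.sum_eq_single t0]
      · show ite _ _ _ = _
        rw [if_neg (Finset.notMem_erase _ _), Finset.insert_erase ht]
      · intro b _ hb
        exact if_pos (Finset.mem_erase.2 ⟨Ne.symm hb, ht⟩)
      · intro h
        exact absurd (Finset.mem_sdiff.2 ⟨ht, ht0⟩) h
    · have h := hd (insert t0 T) y (hT.trans (Finset.subset_insert _ _))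
        (by rw [Finset.card_insert_of_notMem ht, hcard]) hy hyD
      rw [Finset.insert_sdiff_of_notMem _ ht0,
        Finset.sum_insert (fun h => ht (Finset.mem_sdiff.1 h).1), Finset.erase_insert ht,
        CharTwo.add_eq_zero] at h
      rw [h]
      refine Finset.sum_congr rfl fun t htt => ?_
      have htT := (Finset.mem_sdiff.1 htt).1
      show ite _ _ _ = _
      rw [if_neg fun hh => ht (Finset.mem_of_mem_erase hh),
        Finset.erase_insert_of_ne (fun e => ht (by rw [e]; exact htT))]

/-- Every cocycle on the building is a coboundary below the top degree. -/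
theorem building_acyclic {m : ℕ} (hm : 1 ≤ m) (hmn : m < n) :
    Acyclic (Agree (K := K) (n := n)) m := by
  intro f hf hdf
  let t0 : Fin n := ⟨0, NeZero.pos n⟩
  let v : Finset (Fin n) → Chamber K n → ZMod 2 := fun T x =>
    if t0 ∈ T then 0 else f (insert t0 T) x
  obtain ⟨w, hw, heq, -⟩ := morse_neg.extend linkExact_neg (k := m - 1)
    (by rw [Fintype.card_fin]; omega) hf.2 (fun T x _ => congrFun (congrFun hdf T) x) (v := v)
    (fun T x y hx hy _ => by
      show ite _ _ _ = ite _ _ _
      rw [hf.2 (insert t0 T) x y fun t _ => by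
        rw [eq_low_of_desc_neg (desc_empty_of_pot (F := neg K n) hx).1,
          eq_low_of_desc_neg (desc_empty_of_pot (F := neg K n) hy).1]])
    (fun T x hcard _ => by
      show ∑ t ∈ T, v (T.erase t) x = f T x
      by_cases ht : t0 ∈ T
      · rw [Finset.sum_eq_single t0]
        · show ite _ _ _ = _
          rw [if_neg (Finset.notMem_erase _ _), Finset.insert_erase ht]
        · intro b _ hb
          exact if_pos (Finset.mem_erase.2 ⟨Ne.symm hb, ht⟩)
        · exact fun h => absurd ht h
      · have h := congrFun (congrFun hdf (insert t0 T)) x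
        rw [delta, Finset.sum_insert ht, Finset.erase_insert ht, Pi.zero_apply, Pi.zero_apply,
          CharTwo.add_eq_zero] at h
        rw [h]
        refine Finset.sum_congr rfl fun t htT => ?_
        show ite _ _ _ = _
        rw [if_neg fun hh => ht (Finset.mem_of_mem_erase hh),
          Finset.erase_insert_of_ne (fun e => ht (by rw [e]; exact htT))])
  refine ⟨w, hw, funext fun T => funext fun x => ?_⟩
  by_cases hc : T.card = m
  · exact heq T x (by omega)
  · rw [hf.1 T x hc]
    refine Finset.sum_eq_zero fun t ht => hw.1 _ _ ?_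
    rw [Finset.card_erase_of_mem ht]
    have := Finset.card_pos.2 ⟨t, ht⟩
    omega

end Chamber

end Vale.Agent.P067
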