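import Vale.Agent.P067.Z.Contract

/-! Transporting contractions along a bijection of types and an equivalence of chambers. -/

namespace Vale.Agent.P067

variable {ι Ω ι' Ω' : Type*} [DecidableEq ι] [DecidableEq ι']

theorem image_erase_of_leftInv {i : ι → ι'} {j : ι' → ι} {T : Finset ι}
    (hij : ∀ a ∈ T, j (i a) = a) {t : ι} (ht : t ∈ T) :
    (T.erase t).image i = (T.image i).erase (i t) := by
  ext u
  simp only [Finset.mem_image, Finset.mem_erase]
  constructor
  · rintro ⟨a, ⟨hne, ha⟩, rfl⟩
    exact ⟨fun e => hne (by rw [← hij a ha, e, hij t ht]), a, ha, rfl⟩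
  · rintro ⟨hne, a, ha, rfl⟩
    exact ⟨a, ⟨fun e => hne (e ▸ rfl), ha⟩, rfl⟩

theorem delta_image {i : ι → ι'} {j : ι' → ι} {T : Finset ι} (hij : ∀ a ∈ T, j (i a) = a)
    (f : Finset ι' → Ω' → ZMod 2) (b : Ω') :
    delta f (T.image i) b = ∑ t ∈ T, f ((T.erase t).image i) b := by
  rw [delta, Finset.sum_image fun a ha a' ha' e => by rw [← hij a ha, e, hij a' ha']]
  exact Finset.sum_congr rfl fun t ht => by rw [image_erase_of_leftInv hij ht]

theorem Contract.transfer {R : Finset ι → Ω → Ω → Prop} {A : Finset ι} {C : ℕ}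
    (h : Contract R A C) {R' : Finset ι' → Ω' → Ω' → Prop} {A' : Finset ι'} (j : ι' → ι)
    (i : ι → ι') (hji : ∀ t ∈ A', j t ∈ A ∧ i (j t) = t) (hij : ∀ a ∈ A, i a ∈ A' ∧ j (i a) = a)
    (k : Ω' → Ω) (k' : Ω → Ω')
    (hk : ∀ S, S ⊆ A' → ∀ a b, R' S a b → R (S.image j) (k a) (k b))
    (hk' : ∀ T, T ⊆ A → ∀ a b, R T a b → R' (T.image i) (k' a) (k' b))
    (hback : ∀ S, S ⊆ A' → ∀ a, R' S (k' (k a)) a) : Contract R' A' C := by
  classical
  obtain ⟨H, hH, hinv, hid⟩ := h
  let H' : Finset ι' → Ω' → List (Finset ι' × Ω') := fun S a =>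
    if S ⊆ A' then (H (S.image j) (k a)).map fun e => (e.1.image i, k' e.2) else []
  have himg : ∀ S, S ⊆ A' → S.image j ⊆ A := fun S hS u hu => by
    obtain ⟨t, ht, rfl⟩ := Finset.mem_image.1 hu
    exact (hji t (hS ht)).1
  have himg' : ∀ T, T ⊆ A → T.image i ⊆ A' := fun T hT u hu => by
    obtain ⟨t, ht, rfl⟩ := Finset.mem_image.1 hu
    exact (hij t (hT ht)).1
  have hcardj : ∀ S, S ⊆ A' → (S.image j).card = S.card := fun S hS =>
    Finset.card_image_of_injOn fun a ha b hb e => by
      rw [← (hji a (hS ha)).2, e, (hji b (hS hb)).2]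
  have hcardi : ∀ T, T ⊆ A → (T.image i).card = T.card := fun T hT =>
    Finset.card_image_of_injOn fun a ha b hb e => by
      rw [← (hij a (hT ha)).2, e, (hij b (hT hb)).2]
  have hback' : ∀ S, S ⊆ A' → (S.image j).image i = S := fun S hS => by
    rw [Finset.image_image]
    exact (Finset.image_congr fun t ht => (hji t (hS ht)).2).trans Finset.image_id
  let P : (Finset ι' → Ω' → ZMod 2) → Finset ι → Ω → ZMod 2 := fun f T b =>
    if T ⊆ A then f (T.image i) (k' b) else 0
  have hP : ∀ f, Invariant R' f → Invariant R (P f) := fun f hf T a b hr => by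
    show ite _ _ _ = ite _ _ _
    split_ifs with hT
    · exact hf _ _ _ (hk' T hT a b hr)
    · rfl
  have hcone : ∀ f S, S ⊆ A' → ∀ a, cone H' f S a = cone H (P f) (S.image j) (k a) := by
    intro f S hS a
    show ((ite _ _ _ : List _).map _).sum = _
    rw [if_pos hS, List.map_map]
    refine congrArg List.sum (List.map_congr_left fun e he => ?_)
    show f _ _ = ite _ _ _
    rw [if_pos ((hH _ _).2 e he).1]
  refine ⟨H', fun S a => ?_, fun f hf S a b hr => ?_, fun f hf S hS hcard a => ?_⟩
  · by_cases hS : S ⊆ A'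
    · refine ⟨?_, fun e he => ?_⟩
      · show (ite _ _ _ : List _).length ≤ C
        rw [if_pos hS, List.length_map]
        exact (hH _ _).1
      · change e ∈ (ite _ _ _ : List _) at he
        rw [if_pos hS, List.mem_map] at he
        obtain ⟨e', he', rfl⟩ := he
        obtain ⟨h1, h2⟩ := (hH _ _).2 e' he'
        exact ⟨himg' _ h1, by rw [hcardi _ h1, h2, hcardj S hS]⟩
    · refine ⟨?_, fun e he => ?_⟩
      · show (ite _ _ _ : List _).length ≤ C
        rw [if_neg hS]
        simp
      · change e ∈ (ite _ _ _ : List _) at he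
        rw [if_neg hS] at he
        simp at he
  · by_cases hS : S ⊆ A'
    · rw [hcone f S hS, hcone f S hS]
      exact hinv _ (hP f hf) _ _ _ (hk S hS a b hr)
    · show ((ite _ _ _ : List _).map _).sum = ((ite _ _ _ : List _).map _).sum
      rw [if_neg hS, if_neg hS]
  · have hA : A'.card ≤ A.card := hcardj A' subset_rfl ▸ Finset.card_le_card (himg A' subset_rfl)
    have h1 := hid (P f) (hP f hf) (S.image j) (himg S hS) (by rw [hcardj S hS]; omega) (k a)
    have hsf : P f (S.image j) (k a) = f S a := by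
      show ite _ _ _ = _
      rw [if_pos (himg S hS), hback' S hS]
      exact hf S _ _ (hback S hS a)
    have hd1 : delta (cone H (P f)) (S.image j) (k a) = delta (cone H' f) S a := by
      rw [delta_image (j := i) fun t ht => (hji t (hS ht)).2]
      exact Finset.sum_congr rfl fun t _ =>
        (hcone f _ ((Finset.erase_subset t S).trans hS) a).symm
    have hd2 : cone H (delta (P f)) (S.image j) (k a) = cone H' (delta f) S a := by
      rw [hcone (delta f) S hS]
      refine congrArg List.sum (List.map_congr_left fun e he => ?_)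
      have he1 := ((hH _ _).2 e he).1
      show delta (P f) e.1 e.2 = ite _ _ _
      rw [if_pos he1, delta_image (j := j) fun t ht => (hij t (he1 ht)).2]
      exact Finset.sum_congr rfl fun t _ => if_pos ((Finset.erase_subset t e.1).trans he1)
    rw [hsf, hd1, hd2] at h1
    exact h1

end Vale.Agent.P067
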