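import Vale.Agent.P067.Z.OppStatement
import Vale.Agent.P067.Z.Transfer
import Vale.Agent.P067.Z.Building

/-! The residues of the chambers as complexes of sorted flags. -/

namespace Vale.Agent.P067

namespace Chamber

variable {q : ℕ} [Fact q.Prime] {n : ℕ} [NeZero n]

/-- The minimal chambers of a residue. -/
abbrev Res (x : Chamber (ZMod q) n) (D : Finset (Fin n)) : Type :=
  {y : Chamber (ZMod q) n // Agree D x y ∧ y.desc (pos (ZMod q) n) ⊆ D}

/-- The relation of a set of types on the minimal chambers of a residue. -/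
def resRel (x : Chamber (ZMod q) n) (D : Finset (Fin n)) :
    Finset (Fin n) → Res x D → Res x D → Prop :=
  fun T a b => Agree T a.1 b.1

/-- Under M3 the residues have bounded contractions, uniformly in the field. -/
theorem residue_contract_aux (hopp : OppStatement) (n : ℕ) [NeZero n] :
    ∃ C P : ℕ, ∀ q : ℕ, ∀ _ : Fact q.Prime, P ≤ q →
      ∀ (x : Chamber (ZMod q) n) (D : Finset (Fin n)), D.Nonempty →
        x.desc (pos (ZMod q) n) ⊆ D → Contract (resRel x D) (Finset.univ \ D) C := by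
  obtain ⟨C, P, hC⟩ := hopp n
  refine ⟨C, P, fun q hq hP x D hD hx => ?_⟩
  obtain ⟨t0, ht0⟩ := hD
  have hn : (0 : ℤ) < n := by exact_mod_cast NeZero.pos n
  obtain ⟨p, hp⟩ : ∃ p : ℤ, p = ((t0 : ℕ) : ℤ) := ⟨_, rfl⟩
  have htp : typ (n := n) p = t0 := by rw [hp, typ_natCast]
  obtain ⟨D', hD'⟩ : ∃ D' : Finset ℤ,
      D' = (Finset.Ioo p (p + n)).filter fun c => typ (n := n) c ∈ D := ⟨_, rfl⟩
  let pp : Fin n → ℤ := fun t => p + (((t : ℕ) : ℤ) - p) % n
  have typ_pp : ∀ t, typ (n := n) (pp t) = t := fun t => by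
    have e : ((t : ℕ) : ℤ) = pp t + (((t : ℕ) : ℤ) - p) / n * n := by
      show _ = p + _ + _
      rw [add_assoc, Int.emod_add_ediv_mul]
      ring
    rw [← typ_add_mul (pp t) ((((t : ℕ) : ℤ) - p) / n), ← e, typ_natCast]
  have free_iff : ∀ c, c ∈ freePos p (p + n) D' ↔ (p < c ∧ c < p + n) ∧ typ (n := n) c ∉ D := by
    intro c
    simp only [freePos, hD', Finset.mem_sdiff, Finset.mem_filter, Finset.mem_Ioo]
    tauto
  have pp_mem : ∀ t, t ∉ D → pp t ∈ freePos p (p + n) D' := fun t ht => by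
    rw [free_iff, typ_pp]
    have h1 := Int.emod_nonneg (((t : ℕ) : ℤ) - p) hn.ne'
    have h2 := Int.emod_lt_of_pos (((t : ℕ) : ℤ) - p) hn
    refine ⟨⟨?_, ?_⟩, ht⟩
    · rcases h1.lt_or_eq with h | h
      · show p < p + _; omega
      · exfalso
        have := typ_pp t
        rw [show pp t = p from (congrArg (p + ·) h.symm).trans (add_zero p), htp] at this
        exact ht (this ▸ ht0)
    · show p + _ < p + _; omega
  have hsorted : ∀ y : Chamber (ZMod q) n, y.desc (pos (ZMod q) n) ⊆ D →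
      SortedOn (pos (ZMod q) n).toFilt y.M p (p + n) D' := by
    intro y hy c hc
    rw [free_iff] at hc
    have := y.rel_lt_succ (pos (ZMod q) n) (c := c) fun h => hc.2 (hy h)
    rw [jumpAt_eq, jumpAt_eq]
    show (1 : ℤ) * _ < 1 * _
    omega
  have hc := hC q hq hP (Vec (ZMod q)) inferInstance inferInstance (pos (ZMod q) n).toFilt x.M p D'
    (by rw [hD']; exact Finset.filter_subset _ _) (x.chainOn _ _) (x.sep _ _ _) (hsorted x hx)
  have htr : typ (n := n) (p + n) = t0 := by
    have := typ_add_mul (n := n) p 1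
    rw [one_mul] at this
    rw [this, htp]
  let k : Res x D → OppFlag (pos (ZMod q) n).toFilt x.M p (p + n) D' := fun y =>
    ⟨y.1.M, y.1.chainOn _ _, (y.2.1.eq (htp ▸ ht0)).symm, (y.2.1.eq (htr ▸ ht0)).symm,
      fun c hc => (y.2.1.eq (by rw [hD', Finset.mem_filter] at hc; exact hc.2)).symm,
      hsorted _ y.2.2⟩
  let k' : OppFlag (pos (ZMod q) n).toFilt x.M p (p + n) D' → Res x D := fun G =>
    ⟨x.extend p G.1 G.2.1 G.2.2.1 G.2.2.2.1, x.agree_extend _ _ _ fun d hd hd' htd => by
        rcases hd.lt_or_eq with h | rfl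
        · exact G.2.2.2.2.1 d (by rw [hD', Finset.mem_filter, Finset.mem_Ioo]; exact ⟨⟨h, hd'⟩, htd⟩)
        · exact G.2.2.1,
      fun t ht => by
        by_contra htD
        have hm := pp_mem t htD
        have hlt := G.2.2.2.2.2 _ hm
        rw [free_iff] at hm
        rw [← typ_pp t, mem_desc_iff] at ht
        set y := x.extend p G.1 G.2.1 G.2.2.1 G.2.2.2.1 with hy
        have val : ∀ d, p ≤ d → d ≤ p + n → y.M d = G.1 d := fun d h1 h2 =>
          x.extend_apply G.2.1 G.2.2.1 G.2.2.2.1 h1 h2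
        have e : ∀ d, p ≤ d → d < p + n → y.rel (pos (ZMod q) n) d =
            ChainOn.jumpAt (pos (ZMod q) n).toFilt G.1 d := fun d h1 h2 => by
          rw [rel, ChainOn.jumpAt, val d h1 h2.le, val (d + 1) (by omega) (by omega)]
          exact one_mul _
        rw [e _ (by omega) (by omega), e _ (by omega) (by omega)] at ht
        omega⟩
  refine hc.transfer pp (typ (n := n)) (fun t ht => ⟨pp_mem t (Finset.mem_sdiff.1 ht).2, typ_pp t⟩)
    (fun c hc => ?_) k k' (fun S _ a b hr c hc => ?_) (fun T hT a b hr t ht => ?_)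
    (fun S hS a t ht => ?_)
  · rw [free_iff] at hc
    refine ⟨Finset.mem_sdiff.2 ⟨Finset.mem_univ _, hc.2⟩, ?_⟩
    have hd : ((((typ (n := n) c : Fin n) : ℕ) : ℤ) - p) % n = c - p := by
      have h := typ_spec (n := n) c
      rw [show ((((typ (n := n) c : Fin n) : ℕ) : ℤ) - p) = c - p + -(c / n) * n by linarith,
        Int.add_mul_emod_self_right, Int.emod_eq_of_lt (by omega) (by omega)]
    show p + _ = c
    omega
  · obtain ⟨t, ht, rfl⟩ := Finset.mem_image.1 hc
    exact Agree.eq hr (by rw [typ_pp]; exact ht)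
  · obtain ⟨c, hc, rfl⟩ := Finset.mem_image.1 ht
    have hcm := (free_iff c).1 (hT hc)
    have e : ((((typ (n := n) c : Fin n) : ℕ) : ℤ)) = c + -(c / n) * n := by
      linarith [typ_spec (n := n) c]
    show (k' a).1.M _ = (k' b).1.M _
    rw [e, per_mul, per_mul]
    refine congrArg _ ?_
    show (x.extend p a.1 a.2.1 a.2.2.1 a.2.2.2.1).M c = (x.extend p b.1 b.2.1 b.2.2.1 b.2.2.2.1).M c
    rw [x.extend_apply _ _ _ (by omega) (by omega), x.extend_apply _ _ _ (by omega) (by omega)]
    exact hr c hc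
  · have htD := (Finset.mem_sdiff.1 (hS ht)).2
    have hm := (free_iff _).1 (pp_mem t htD)
    have e : ((t : ℕ) : ℤ) = pp t + (((t : ℕ) : ℤ) - p) / n * n := by
      show _ = p + _ + _
      rw [add_assoc, Int.emod_add_ediv_mul]
      ring
    rw [e, per_mul, per_mul]
    refine congrArg _ ?_
    show (x.extend p (k a).1 (k a).2.1 (k a).2.2.1 (k a).2.2.2.1).M (pp t) = _
    rw [x.extend_apply _ _ _ (by omega) (by omega)]

theorem linkExact_pos (hopp : OppStatement) (n : ℕ) [NeZero n] :
    ∃ P : ℕ, ∀ q : ℕ, ∀ _ : Fact q.Prime, P ≤ q → ∀ x : Chamber (ZMod q) n,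
      0 < x.pot (pos (ZMod q) n) →
      LinkExact (Agree (K := ZMod q) (n := n)) (fun y => y.desc (pos (ZMod q) n)) x := by
  obtain ⟨C, P, hC⟩ := residue_contract_aux hopp n
  refine ⟨P, fun q hq hP x hpot m hDm hmn φ hinv hd => ?_⟩
  classical
  obtain ⟨D, hD⟩ : ∃ D, D = x.desc (pos (ZMod q) n) := ⟨_, rfl⟩
  simp only [← hD] at hDm hinv hd ⊢
  have hne : D.Nonempty := Finset.nonempty_iff_ne_empty.2 fun h => by
    rw [pot_eq_zero_of_rel (rel_eq_self_of_desc_pos (hD.symm.trans h))] at hpot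
    omega
  have hAcard : (Finset.univ \ D).card = n - D.card := by
    rw [Finset.card_sdiff, Finset.inter_univ, Finset.card_univ, Fintype.card_fin]
  rw [Fintype.card_fin] at hmn
  have hsd : ∀ S, S ⊆ Finset.univ \ D → (D ∪ S) \ D = S ∧ Disjoint D S := fun S hS => by
    have hdis : Disjoint D S := Finset.disjoint_left.2 fun a ha h =>
      (Finset.mem_sdiff.1 (hS h)).2 ha
    exact ⟨Finset.union_sdiff_cancel_left hdis, hdis⟩
  obtain ⟨g, hg, hsolve⟩ := (hC q hq hP x D hne hD.ge).exact (m := m - D.card) (by omega)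
    (f := fun S y => φ (D ∪ S) y.1)
    (fun S a b hr => hinv (D ∪ S) a.1 b.1 Finset.subset_union_left a.2 b.2 fun t ht => by
      rcases Finset.mem_union.1 ht with h | h
      · exact ((a.2.1 t h).symm.trans (b.2.1 t h))
      · exact hr t h)
    (fun S hS hcard y => by
      obtain ⟨hsd1, hdis⟩ := hsd S hS
      have h := hd (D ∪ S) y.1 Finset.subset_union_left
        (by rw [Finset.card_union_of_disjoint hdis, hcard]; omega) y.2.1 y.2.2
      rw [hsd1] at h
      refine Eq.trans (Finset.sum_congr rfl fun t ht => ?_) h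
      show φ _ _ = _
      congr 1
      ext a
      simp only [Finset.mem_union, Finset.mem_erase]
      have := Finset.disjoint_right.1 hdis ht
      aesop)
  refine ⟨fun T y => if hy : Agree D x y ∧ y.desc (pos (ZMod q) n) ⊆ D then g (T \ D) ⟨y, hy⟩
    else 0, fun T y z _ hy hz hr => ?_, fun T y hT hcard hy hyD => ?_⟩
  · show dite _ _ _ = dite _ _ _
    rw [dif_pos hy, dif_pos hz]
    exact hg _ _ _ fun t ht => hr t (Finset.mem_sdiff.1 ht).1
  · have hsub : T \ D ⊆ Finset.univ \ D := fun a ha =>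
      Finset.mem_sdiff.2 ⟨Finset.mem_univ a, (Finset.mem_sdiff.1 ha).2⟩
    have h := hsolve (T \ D) hsub
      (by rw [Finset.card_sdiff_of_subset hT, hcard]) ⟨y, hy, hyD⟩
    rw [Finset.union_sdiff_of_subset hT] at h
    rw [← h]
    refine Finset.sum_congr rfl fun t _ => ?_
    show dite _ _ _ = _
    rw [dif_pos ⟨hy, hyD⟩]
    congr 1
    ext a
    simp only [Finset.mem_sdiff, Finset.mem_erase]
    tauto

end Chamber

end Vale.Agent.P067
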