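import Vale.Agent.P067.Final
import Vale.Agent.P067.Z.Opp
import Vale.Agent.P067.Z.BridgeStatement

/-! M2 from M3 and the bridge to the group, and the contraction of the residues of the group. -/

namespace Vale.Agent.P067

open Chamber

theorem zStatement_of (hopp : OppStatement) (hb : BridgeStatement) : ZStatement := by
  intro n
  rcases Nat.eq_zero_or_pos n with rfl | hn
  · exact ⟨0, fun p _ _ m h1 h2 => by omega⟩
  have : NeZero n := ⟨hn.ne'⟩
  obtain ⟨P, hP⟩ := linkExact_pos hopp n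
  refine ⟨P, fun p hp hPp m h1 h2 f hf hdf => ?_⟩
  classical
  obtain ⟨e, he, hzero, hrel⟩ := hb n inferInstance p hp
  let v : Finset (Fin n) → Chamber (ZMod p) n → ZMod 2 := fun T x =>
    if hx : ∃ g, e g = x then f T hx.choose else 0
  have hv : ∀ T g, v T (e g) = f T g := fun T g => by
    have hx : ∃ g', e g' = e g := ⟨g, rfl⟩
    show dite _ _ _ = _
    rw [dif_pos hx, he hx.choose_spec]
  obtain ⟨w, hw, hdw, hwv⟩ := morse_pos.extend (hP p hp hPp) (k := m)
    (by rw [Fintype.card_fin]; omega) (z := fun _ _ => 0) (fun _ _ _ _ => rfl)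
    (fun T x _ => Finset.sum_const_zero) (v := v)
    (fun T x y hx hy hr => by
      obtain ⟨g, rfl⟩ := (hzero x).1 hx
      obtain ⟨h, rfl⟩ := (hzero y).1 hy
      rw [hv, hv]
      exact hf.2 T g h ((hrel T g h).1 hr))
    (fun T x _ hx => by
      obtain ⟨g, rfl⟩ := (hzero x).1 hx
      show ∑ t ∈ T, v (T.erase t) (e g) = 0
      simp only [hv]
      exact congrFun (congrFun hdf T) g)
  have hdw0 : delta w = 0 := by
    funext T x
    by_cases hc : T.card = m + 1
    · exact hdw T x hc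
    · refine Finset.sum_eq_zero fun t ht => hw.1 _ _ ?_
      rw [Finset.card_erase_of_mem ht]
      have := Finset.card_pos.2 ⟨t, ht⟩
      omega
  obtain ⟨u, hu, hdu⟩ := building_acyclic (K := ZMod p) (n := n) h1 (by omega) w hw hdw0
  refine ⟨fun T g => u T (e g), ⟨fun T g hc => hu.1 T _ hc,
    fun T g h hr => hu.2 T _ _ ((hrel T g h).2 hr)⟩, funext fun T => funext fun g => ?_⟩
  have h := congrFun (congrFun hdu T) (e g)
  show delta u T (e g) = f T g
  rw [h]
  by_cases hc : T.card = m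
  · rw [hwv T (e g) hc ((hzero _).2 ⟨g, rfl⟩), hv]
  · rw [hw.1 T _ hc, hf.1 T g hc]

/-- The residues of the group have bounded contractions. -/
theorem residue_contract (hopp : OppStatement) (hb : BridgeStatement) (n : ℕ) :
    ∃ C P : ℕ, ∀ p : ℕ, ∀ _ : Fact p.Prime, P ≤ p → ∀ S : Finset (Fin n), S.Nonempty →
      Contract (cosetRel fun T => (K n p T).subgroupOf (K n p S)) (Finset.univ \ S) C := by
  rcases Nat.eq_zero_or_pos n with rfl | hn
  · exact ⟨0, 0, fun p _ _ S hS => by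
      obtain ⟨t, -⟩ := hS
      exact t.elim0⟩
  have : NeZero n := ⟨hn.ne'⟩
  obtain ⟨C, P, hC⟩ := residue_contract_aux hopp n
  refine ⟨C, P, fun p hp hPp S hS => ?_⟩
  classical
  obtain ⟨e, he, hzero, hrel⟩ := hb n inferInstance p hp
  have hdesc : ∀ g, (e g).desc (pos (ZMod p) n) = ∅ := fun g =>
    (desc_empty_of_pot _ ((hzero _).2 ⟨g, rfl⟩)).1
  have hmem : ∀ g, g ∈ K n p S ↔ Agree S (e 1) (e g) := fun g => by
    rw [hrel, inv_one, one_mul]
  have hsurj : ∀ y : Res (e 1) S, ∃ g : ↥(K n p S), e g.1 = y.1 := fun y => by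
    obtain ⟨h1, -⟩ := morse_pos.uniq y.2.1 (by rw [hdesc]; exact Finset.empty_subset S) y.2.2
    obtain ⟨g, hg⟩ := (hzero y.1).1 (h1.symm.trans ((hzero _).2 ⟨1, rfl⟩))
    exact ⟨⟨g, (hmem g).2 (hg ▸ y.2.1)⟩, hg⟩
  choose k' hk' using hsurj
  refine (hC p hp hPp (e 1) S hS (by rw [hdesc]; exact Finset.empty_subset S)).transfer id id
    (fun t ht => ⟨ht, rfl⟩) (fun t ht => ⟨ht, rfl⟩)
    (fun g => ⟨e g.1, (hmem g.1).1 g.2, by rw [hdesc]; exact Finset.empty_subset S⟩) k'
    (fun T _ a b hr => ?_) (fun T _ a b hr => ?_) (fun T _ a => ?_)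
  · rw [Finset.image_id]
    exact (hrel T a.1 b.1).2 hr
  · rw [Finset.image_id]
    have h2 : Agree T a.1 b.1 := hr
    rw [← hk' a, ← hk' b, hrel] at h2
    exact h2
  · have h2 := hk' ⟨e a.1, (hmem a.1).1 a.2, by rw [hdesc]; exact Finset.empty_subset S⟩
    show _⁻¹ * a ∈ (K n p T).subgroupOf (K n p S)
    rw [show k' _ = a from Subtype.ext (he h2), inv_mul_cancel]
    exact one_mem _

end Vale.Agent.P067
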