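import Vale.Agent.P067.Z.Lattice

/-! Chambers as periodic chains of lattices, their relative position and the potential. -/

namespace Vale.Agent.P067

variable {K : Type} [Field K] {n : ℕ}

variable (K n) in
/-- A chamber: a periodic saturated chain of lattices of the normalised index. -/
structure Chamber where
  /-- The lattices. -/
  M : ℤ → Submodule K (Vec K)
  cov : ∀ a, M a ⋖ M (a + 1)
  per : ∀ a, M (a + n) = shiftS (n : ℤ) (M a)
  bdd : ∀ a, ∃ k : ℤ, low K (-k) ≤ M a ∧ M a ≤ low K k
  norm : ∑ a ∈ Finset.Ico (0 : ℤ) n, (ChainOn.jumpAt (pos K n).toFilt M a - a) = 0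

namespace Chamber

variable (x y : Chamber K n) (F : PerFilt K n)

theorem chainOn (p r : ℤ) : ChainOn x.M p r := fun c _ _ => x.cov c

theorem per_mul (a k : ℤ) : x.M (a + k * n) = shiftS (k * n) (x.M a) := by
  induction k with
  | zero => simp [shiftS_zero]
  | succ k ih =>
    rw [show a + ((k : ℤ) + 1) * n = a + k * n + n by ring, x.per, ih, shiftS_shiftS]
    congr 1
    ring
  | pred k ih =>
    have h := x.per (a + (-(k : ℤ) - 1) * n)
    rw [show a + (-(k : ℤ) - 1) * n + n = a + -(k : ℤ) * n by ring, ih] at h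
    have h2 := congrArg (shiftS (-(n : ℤ))) h
    rw [shiftS_shiftS, shiftS_shiftS, neg_add_cancel, shiftS_zero] at h2
    rw [← h2]
    congr 1
    ring

theorem sep (p r : ℤ) : F.toFilt.Sep (x.M p) (x.M r) := by
  obtain ⟨k, hk, -⟩ := x.bdd p
  obtain ⟨l, -, hl⟩ := x.bdd r
  exact F.sep (max k l) _ _ ((low_mono (by omega)).trans hk)
    (hl.trans (low_mono (le_max_right _ _)))

/-- The normalised relative position. -/
noncomputable def rel (a : ℤ) : ℤ := F.eps * ChainOn.jumpAt F.toFilt x.M a

theorem jumpAt_eq (a : ℤ) : ChainOn.jumpAt F.toFilt x.M a = F.eps * x.rel F a := by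
  rw [rel, ← mul_assoc, F.eps_mul, one_mul]

theorem rel_inj {a b : ℤ} (h : x.rel F a = x.rel F b) : a = b := by
  have h' : ChainOn.jumpAt F.toFilt x.M a = ChainOn.jumpAt F.toFilt x.M b := by
    rw [jumpAt_eq, jumpAt_eq, h]
  exact (x.chainOn (min a b) (max a b + 1)).jump_inj (x.sep F _ _) (min_le_left _ _)
    (by omega) (min_le_right _ _) (by omega) h'

theorem rel_per (a : ℤ) : x.rel F (a + n) = x.rel F a + n := by
  have h := Filt.isJump_jump (x.cov a) (x.sep F a (a + 1))
  have key : F.toFilt.IsJump (x.M (a + n)) (x.M (a + n + 1))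
      (ChainOn.jumpAt F.toFilt x.M a + F.eps * n) := by
    rw [x.per, show a + (n : ℤ) + 1 = a + 1 + n by ring, x.per]
    refine ⟨fun hle => h.1 ?_, ?_⟩
    · rw [← shiftS_le_iff (n : ℤ), shiftS_inf, F.per]
      exact hle
    · have h2 := shiftS_le (n : ℤ) h.2
      rw [shiftS_inf, F.per, show F.toFilt.jump (x.M a) (x.M (a + 1)) + 1 + F.eps * n =
        F.toFilt.jump (x.M a) (x.M (a + 1)) + F.eps * n + 1 by ring] at h2
      exact h2
  have e : ChainOn.jumpAt F.toFilt x.M (a + n) =
      ChainOn.jumpAt F.toFilt x.M a + F.eps * n := key.jump_eq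
  rw [rel, rel, e, mul_add, ← mul_assoc, F.eps_mul, one_mul]

theorem rel_per_mul (a k : ℤ) : x.rel F (a + k * n) = x.rel F a + k * n := by
  induction k with
  | zero => simp
  | succ k ih =>
    rw [show a + ((k : ℤ) + 1) * n = a + k * n + n by ring, x.rel_per, ih]
    ring
  | pred k ih =>
    have h := x.rel_per F (a + (-(k : ℤ) - 1) * n)
    rw [show a + (-(k : ℤ) - 1) * n + n = a + -(k : ℤ) * n by ring, ih] at h
    linarith

/-- Sums of periodic functions over a period do not depend on the window. -/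
theorem sum_window [NeZero n] (f : ℤ → ℤ) (hf : ∀ a k : ℤ, f (a + k * n) = f a) (t : ℤ) :
    ∑ a ∈ Finset.Ico t (t + n), f a = ∑ a ∈ Finset.Ico (0 : ℤ) n, f a := by
  have hn : (0 : ℤ) < n := by exact_mod_cast NeZero.pos n
  refine Finset.sum_nbij' (fun a => a % n) (fun a => t + (a - t) % n) ?_ ?_ ?_ ?_ ?_
  · intro a _
    simp [Finset.mem_Ico, Int.emod_nonneg a hn.ne', Int.emod_lt_of_pos a hn]
  · intro a _
    have h1 := Int.emod_nonneg (a - t) hn.ne'
    have h2 := Int.emod_lt_of_pos (a - t) hn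
    simp [Finset.mem_Ico]
    omega
  · intro a ha
    rw [Finset.mem_Ico] at ha
    show t + (a % n - t) % n = a
    rw [Int.emod_sub_emod, Int.emod_eq_of_lt (by omega) (by omega)]
    ring
  · intro a ha
    rw [Finset.mem_Ico] at ha
    show (t + (a - t) % n) % n = a
    rw [Int.add_emod_emod, show t + (a - t) = a by ring, Int.emod_eq_of_lt ha.1 ha.2]
  · intro a _
    conv_lhs => rw [← Int.emod_add_ediv_mul a n]
    exact hf _ _

/-- The jumps of an interval depend only on its ends. -/
theorem image_rel_eq {p r : ℤ} (hpr : p ≤ r) (hp : x.M p = y.M p) (hr : x.M r = y.M r) :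
    (Finset.Ico p r).image (x.rel F) = (Finset.Ico p r).image (y.rel F) := by
  have sub : ∀ u v : Chamber K n, u.M p = v.M p → u.M r = v.M r →
      (Finset.Ico p r).image (u.rel F) ⊆ (Finset.Ico p r).image (v.rel F) := by
    intro u v hp hr b hb
    obtain ⟨c, hc, rfl⟩ := Finset.mem_image.1 hb
    rw [Finset.mem_Ico] at hc
    have h := (u.chainOn p r).inJumps_of_jump (u.sep F p r) hc.1 hc.2
    rw [hp, hr] at h
    obtain ⟨d, hd1, hd2, hd3⟩ :=
      (v.chainOn p r).exists_jump_of_inJumps (v.sep F p r) hpr h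
    exact Finset.mem_image.2 ⟨d, Finset.mem_Ico.2 ⟨hd1, hd2⟩, by rw [rel, rel, hd3]⟩
  exact (sub x y hp hr).antisymm (sub y x hp.symm hr.symm)

theorem sum_rel_window [NeZero n] (t : ℤ) :
    ∑ a ∈ Finset.Ico t (t + n), (x.rel F a - a) = ∑ a ∈ Finset.Ico (0 : ℤ) n, (x.rel F a - a) :=
  sum_window (fun a => x.rel F a - a) (fun a k => by simp only [x.rel_per_mul]; ring) t

/-- The potential. -/
noncomputable def pot : ℕ := (∑ a ∈ Finset.Ico (0 : ℤ) n, (x.rel F a - a) ^ 2).toNat

theorem cast_pot : (x.pot F : ℤ) = ∑ a ∈ Finset.Ico (0 : ℤ) n, (x.rel F a - a) ^ 2 :=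
  Int.toNat_of_nonneg (Finset.sum_nonneg fun a _ => sq_nonneg _)

/-- The types at which the relative position decreases. -/
noncomputable def desc : Finset (Fin n) :=
  Finset.univ.filter fun t : Fin n =>
    x.rel F ((t : ℕ) : ℤ) < x.rel F (((t : ℕ) : ℤ) - 1)

variable [NeZero n]

/-- The type of a position. -/
def typ (c : ℤ) : Fin n :=
  ⟨(c % n).toNat, by
    have hn : (0 : ℤ) < n := by exact_mod_cast NeZero.pos n
    have h1 := Int.emod_nonneg c hn.ne'
    have h2 := Int.emod_lt_of_pos c hn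
    omega⟩

theorem typ_spec (c : ℤ) : (((typ (n := n) c : Fin n) : ℕ) : ℤ) + c / n * n = c := by
  have hn : (0 : ℤ) < n := by exact_mod_cast NeZero.pos n
  have h : (((typ (n := n) c : Fin n) : ℕ) : ℤ) = c % n :=
    Int.toNat_of_nonneg (Int.emod_nonneg c hn.ne')
  rw [h]
  exact Int.emod_add_ediv_mul c n

theorem typ_natCast (t : Fin n) : typ (n := n) ((t : ℕ) : ℤ) = t := by
  refine Fin.ext ?_
  show (((t : ℕ) : ℤ) % n).toNat = t
  rw [Int.emod_eq_of_lt (by omega) (by exact_mod_cast t.isLt)]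
  simp

theorem typ_add_mul (c k : ℤ) : typ (n := n) (c + k * n) = typ c := by
  refine Fin.ext ?_
  show ((c + k * n) % (n : ℤ)).toNat = (c % (n : ℤ)).toNat
  rw [Int.add_mul_emod_self_right]

theorem mem_desc_iff (c : ℤ) : typ (n := n) c ∈ x.desc F ↔ x.rel F c < x.rel F (c - 1) := by
  have h := typ_spec (n := n) c
  set t : ℤ := (((typ (n := n) c : Fin n) : ℕ) : ℤ) with ht
  rw [desc, Finset.mem_filter, ← ht]
  have e1 : x.rel F c = x.rel F t + c / n * n := by
    conv_lhs => rw [← h, x.rel_per_mul]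
  have e2 : x.rel F (c - 1) = x.rel F (t - 1) + c / n * n := by
    rw [show c - 1 = t - 1 + c / n * n by linarith, x.rel_per_mul]
  simp [e1, e2]

/-- Two chambers agree on a set of types. -/
def Agree (T : Finset (Fin n)) (x y : Chamber K n) : Prop :=
  ∀ t ∈ T, x.M ((t : ℕ) : ℤ) = y.M ((t : ℕ) : ℤ)

theorem Agree.eq {T : Finset (Fin n)} {x y : Chamber K n} (h : Agree T x y) {c : ℤ}
    (hc : typ c ∈ T) : x.M c = y.M c := by
  rw [← typ_spec (n := n) c, x.per_mul, y.per_mul, h _ hc]

/-- The periodic chain made from a chain on one period. -/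
noncomputable def extendM (a₀ : ℤ) (G : ℤ → Submodule K (Vec K)) (d : ℤ) :
    Submodule K (Vec K) :=
  shiftS ((d - a₀) / n * n) (G (a₀ + (d - a₀) % n))

theorem extendM_eq {a₀ : ℤ} {G : ℤ → Submodule K (Vec K)}
    (hends : G (a₀ + n) = shiftS (n : ℤ) (G a₀)) {d : ℤ} (h1 : a₀ ≤ d) (h2 : d ≤ a₀ + n) :
    extendM (n := n) a₀ G d = G d := by
  have hn : (0 : ℤ) < n := by exact_mod_cast NeZero.pos n
  rcases h2.lt_or_eq with h2 | rfl
  · rw [extendM, Int.ediv_eq_zero_of_lt (by omega) (by omega),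
      Int.emod_eq_of_lt (by omega) (by omega), zero_mul, shiftS_zero]
    congr 1
    ring
  · rw [extendM, show a₀ + (n : ℤ) - a₀ = n by ring, Int.emod_self, Int.ediv_self hn.ne',
      one_mul, add_zero, hends]

theorem extendM_per (a₀ : ℤ) (G : ℤ → Submodule K (Vec K)) (d k : ℤ) :
    extendM (n := n) a₀ G (d + k * n) = shiftS (k * n) (extendM (n := n) a₀ G d) := by
  have hn : (n : ℤ) ≠ 0 := by exact_mod_cast NeZero.ne n
  rw [extendM, extendM, shiftS_shiftS, show d + k * n - a₀ = d - a₀ + k * n by ring,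
    Int.add_mul_emod_self_right, Int.add_mul_ediv_right _ _ hn]
  congr 1
  ring

omit [NeZero n] in
theorem sum_jumps_eq {p : ℤ} (M : ℤ → Submodule K (Vec K)) (hM : ChainOn M p (p + n))
    (hp : M p = x.M p) (hr : M (p + n) = x.M (p + n)) :
    ∑ a ∈ Finset.Ico p (p + n), ChainOn.jumpAt F.toFilt M a =
      ∑ a ∈ Finset.Ico p (p + n), ChainOn.jumpAt F.toFilt x.M a := by
  have hs : F.toFilt.Sep (M p) (M (p + n)) := by rw [hp, hr]; exact x.sep F _ _
  have inj : ∀ (N : ℤ → Submodule K (Vec K)), ChainOn N p (p + n) →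
      F.toFilt.Sep (N p) (N (p + n)) →
      Set.InjOn (ChainOn.jumpAt F.toFilt N) ↑(Finset.Ico p (p + n)) := by
    intro N hN hsN a ha b hb
    rw [Finset.mem_coe, Finset.mem_Ico] at ha hb
    exact hN.jump_inj hsN ha.1 ha.2 hb.1 hb.2
  have him : (Finset.Ico p (p + n)).image (ChainOn.jumpAt F.toFilt M) =
      (Finset.Ico p (p + n)).image (ChainOn.jumpAt F.toFilt x.M) := by
    ext b
    simp only [Finset.mem_image, Finset.mem_Ico, and_assoc]
    rw [← hM.inJumps_iff hs (by omega), hp, hr,
      (x.chainOn p (p + n)).inJumps_iff (x.sep F _ _) (by omega)]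
  have e1 := Finset.sum_image (f := fun b : ℤ => b) (inj M hM hs)
  have e2 := Finset.sum_image (f := fun b : ℤ => b) (inj x.M (x.chainOn _ _) (x.sep F _ _))
  rw [← e1, ← e2, him]

/-- Replace one period of a chamber by another chain with the same ends. -/
noncomputable def extend (a₀ : ℤ) (G : ℤ → Submodule K (Vec K))
    (hG : ChainOn G a₀ (a₀ + n)) (h0 : G a₀ = x.M a₀) (h1 : G (a₀ + n) = x.M (a₀ + n)) :
    Chamber K n where
  M := extendM (n := n) a₀ G
  cov := by
    have hends : G (a₀ + n) = shiftS (n : ℤ) (G a₀) := by rw [h1, h0, x.per]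
    have hn : (0 : ℤ) < n := by exact_mod_cast NeZero.pos n
    intro a
    have hlo := Int.emod_nonneg (a - a₀) hn.ne'
    have hhi := Int.emod_lt_of_pos (a - a₀) hn
    set d := a₀ + (a - a₀) % n with hd
    set k := (a - a₀) / (n : ℤ) with hk
    have e : a = d + k * n := by
      rw [hd, hk, add_assoc, Int.emod_add_ediv_mul]; ring
    rw [show a + 1 = d + 1 + k * n by linarith, extendM_per]
    conv_lhs => rw [e, extendM_per, extendM_eq hends (by omega) (by omega)]
    rw [extendM_eq hends (by omega) (by omega)]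
    exact shiftS_covBy _ (hG d (by omega) (by omega))
  per := fun a => by simpa using extendM_per (n := n) a₀ G a 1
  bdd := by
    have hn : (0 : ℤ) < n := by exact_mod_cast NeZero.pos n
    intro a
    have hlo := Int.emod_nonneg (a - a₀) hn.ne'
    have hhi := Int.emod_lt_of_pos (a - a₀) hn
    obtain ⟨k, hk, -⟩ := x.bdd a₀
    obtain ⟨l, -, hl⟩ := x.bdd (a₀ + n)
    set d := a₀ + (a - a₀) % n with hd
    set j := (a - a₀) / (n : ℤ) * n
    refine ⟨max (k - j) (l + j), ?_, ?_⟩
    · refine le_trans ?_ (shiftS_le j ((h0 ▸ hk).trans (hG.le le_rfl (c := a₀) (by omega)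
        (by omega : d ≤ a₀ + n))))
      rw [shiftS_low]
      exact low_mono (by omega)
    · refine le_trans (shiftS_le j ((hG.le (by omega) (by omega : d ≤ a₀ + n) le_rfl).trans
        (h1 ▸ hl))) ?_
      rw [shiftS_low]
      exact low_mono (by omega)
  norm := by
    have hends : G (a₀ + n) = shiftS (n : ℤ) (G a₀) := by rw [h1, h0, x.per]
    have hper : ∀ a k : ℤ, ChainOn.jumpAt (pos K n).toFilt x.M (a + k * n) - (a + k * n) =
        ChainOn.jumpAt (pos K n).toFilt x.M a - a := by
      intro a k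
      rw [x.jumpAt_eq, x.jumpAt_eq, x.rel_per_mul]
      simp [pos]
    have hperE : ∀ a k : ℤ, ChainOn.jumpAt (pos K n).toFilt (extendM (n := n) a₀ G) (a + k * n) -
        (a + k * n) = ChainOn.jumpAt (pos K n).toFilt (extendM (n := n) a₀ G) a - a := by
      have hn : (0 : ℤ) < n := by exact_mod_cast NeZero.pos n
      intro a k
      have hlo := Int.emod_nonneg (a - a₀) hn.ne'
      have hhi := Int.emod_lt_of_pos (a - a₀) hn
      set d := a₀ + (a - a₀) % n with hd
      have e : a = d + (a - a₀) / n * n := by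
        rw [hd, add_assoc, Int.emod_add_ediv_mul]; ring
      have hs : (pos K n).toFilt.Sep (G d) (G (d + 1)) :=
        ((h0 ▸ h1 ▸ x.sep (pos K n) _ _) : (pos K n).toFilt.Sep (G a₀) (G (a₀ + n))).mono
          (hG.le le_rfl (by omega) (by omega)) (hG.le (by omega) (by omega) le_rfl)
      have hj := Filt.isJump_jump (hG d (by omega) (by omega)) hs
      have key : ∀ m : ℤ, ChainOn.jumpAt (pos K n).toFilt (extendM (n := n) a₀ G) (d + m * n) =
          (pos K n).toFilt.jump (G d) (G (d + 1)) + m * n := by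
        intro m
        refine Filt.IsJump.jump_eq ?_
        rw [show d + m * n + 1 = d + 1 + m * n by ring, extendM_per, extendM_per,
          extendM_eq hends (by omega) (by omega), extendM_eq hends (by omega) (by omega)]
        refine ⟨fun hle => hj.1 ?_, ?_⟩
        · rw [← shiftS_le_iff (m * n), shiftS_inf]
          exact le_trans (le_of_eq (by
            show _ ⊓ shiftS (m * n) (high K _) = _ ⊓ high K _
            rw [shiftS_high])) hle
        · have h2 := shiftS_le (m * n) hj.2
          rw [shiftS_inf] at h2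
          refine le_trans (le_of_eq ?_) h2
          show _ ⊓ high K _ = _ ⊓ shiftS (m * n) (high K _)
          rw [shiftS_high]
          congr 2
          ring
      rw [e, add_assoc, ← add_mul, key, key]
      ring
    rw [← sum_window _ hperE a₀, Finset.sum_sub_distrib,
      x.sum_jumps_eq (pos K n) (extendM (n := n) a₀ G)
        (fun c hc hc' => by
          rw [extendM_eq hends hc hc'.le, extendM_eq hends (by omega) hc']
          exact hG c hc hc')
        (by rw [extendM_eq hends le_rfl (by omega), h0])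
        (by rw [extendM_eq hends (by omega) le_rfl, h1]),
      ← Finset.sum_sub_distrib, sum_window _ hper a₀]
    exact x.norm

theorem extend_apply {a₀ : ℤ} {G : ℤ → Submodule K (Vec K)}
    (hG : ChainOn G a₀ (a₀ + n)) (h0 : G a₀ = x.M a₀) (h1 : G (a₀ + n) = x.M (a₀ + n))
    {d : ℤ} (hd : a₀ ≤ d) (hd' : d ≤ a₀ + n) : (x.extend a₀ G hG h0 h1).M d = G d :=
  extendM_eq (by rw [h1, h0, x.per]) hd hd'

end Chamber

end Vale.Agent.P067
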