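import Vale.Agent.P067.Sys

/-! Bounded contractions of chamber systems below the top size. -/

namespace Vale.Agent.P067

variable {ι Ω : Type*} [DecidableEq ι]

/-- The sum of a cochain over the list attached to a type set and a chamber. -/
def cone (H : Finset ι → Ω → List (Finset ι × Ω)) (f : Finset ι → Ω → ZMod 2) :
    Finset ι → Ω → ZMod 2 :=
  fun S x => ((H S x).map fun e => f e.1 e.2).sum

/-- Constant on the classes of the relation of every type set. -/
def Invariant (R : Finset ι → Ω → Ω → Prop) (f : Finset ι → Ω → ZMod 2) : Prop :=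
  ∀ T x y, R T x y → f T x = f T y

/-- A contraction on the type sets inside `A` below the top size, with at most `C` terms per
face. -/
def Contract (R : Finset ι → Ω → Ω → Prop) (A : Finset ι) (C : ℕ) : Prop :=
  ∃ H : Finset ι → Ω → List (Finset ι × Ω),
    (∀ S x, (H S x).length ≤ C ∧ ∀ e ∈ H S x, e.1 ⊆ A ∧ e.1.card = S.card + 1) ∧
    (∀ f, Invariant R f → Invariant R (cone H f)) ∧
    ∀ f, Invariant R f → ∀ S, S ⊆ A → S.card < A.card → ∀ x,
      delta (cone H f) S x + cone H (delta f) S x = f S x

/-- A contraction gives augmented exactness below the top size. -/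
theorem Contract.exact {R : Finset ι → Ω → Ω → Prop} {A : Finset ι} {C : ℕ}
    (h : Contract R A C) {m : ℕ} (hm : m < A.card) {f : Finset ι → Ω → ZMod 2}
    (hf : Invariant R f) (hd : ∀ T, T ⊆ A → T.card = m + 1 → ∀ x, delta f T x = 0) :
    ∃ g, Invariant R g ∧ ∀ S, S ⊆ A → S.card = m → ∀ x, delta g S x = f S x := by
  obtain ⟨H, hH, hinv, hid⟩ := h
  refine ⟨cone H f, hinv f hf, fun S hS hc x => ?_⟩
  have h0 : cone H (delta f) S x = 0 := by
    refine List.sum_eq_zero fun a ha => ?_
    obtain ⟨e, he, rfl⟩ := List.mem_map.1 ha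
    obtain ⟨h1, h2⟩ := (hH S x).2 e he
    exact hd e.1 h1 (by omega) e.2
  have h1 := hid f hf S hS (by omega) x
  rwa [h0, add_zero] at h1

end Vale.Agent.P067
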