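import Mathlib

/-! Relative position of saturated chains of submodules and a filtration with one-dimensional
steps: the jumps. -/

namespace Vale.Agent.P067

open Submodule

variable {K V : Type*} [Field K] [AddCommGroup V] [Module K V]

variable (K V) in
/-- An exhaustive decreasing filtration with steps of dimension at most one. -/
structure Filt where
  /-- The pieces. -/
  Q : ℤ → Submodule K V
  anti : Antitone Q
  step : ∀ b, ∃ v ∈ Q b, Q b ≤ (K ∙ v) ⊔ Q (b + 1)
  exhaust : ∀ v, ∃ b, v ∈ Q b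

namespace Filt

variable (F : Filt K V)

/-- The filtration is eventually below `A` inside `B`. -/
def Sep (A B : Submodule K V) : Prop := ∃ b, B ⊓ F.Q b ≤ A

/-- `b` is the jump of the step from `A` to `B`. -/
def IsJump (A B : Submodule K V) (b : ℤ) : Prop :=
  ¬ B ⊓ F.Q b ≤ A ∧ B ⊓ F.Q (b + 1) ≤ A

open Classical in
/-- The jump of the step from `A` to `B`. -/
noncomputable def jump (A B : Submodule K V) : ℤ :=
  if h : ∃ b, F.IsJump A B b then h.choose else 0

/-- `b` is a jump of the interval from `A` to `B`. -/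
def InJumps (A B : Submodule K V) (b : ℤ) : Prop :=
  ¬ B ⊓ F.Q b ≤ A ⊔ (B ⊓ F.Q (b + 1))

variable {F}

theorem Sep.mono {A B A' B' : Submodule K V} (h : F.Sep A B) (hA : A ≤ A') (hB : B' ≤ B) :
    F.Sep A' B' := by
  obtain ⟨b, hb⟩ := h
  exact ⟨b, le_trans (inf_le_inf_right _ hB) (hb.trans hA)⟩

theorem exists_isJump {A B : Submodule K V} (h : ¬ B ≤ A) (hs : F.Sep A B) :
    ∃ b, F.IsJump A B b := by
  obtain ⟨b₀, hb₀⟩ := hs
  obtain ⟨v, hvB, hvA⟩ := SetLike.not_le_iff_exists.1 h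
  obtain ⟨c, hc⟩ := F.exhaust v
  obtain ⟨m, hm, hmax⟩ := Int.exists_greatest_of_bdd
    (P := fun b => ¬ B ⊓ F.Q b ≤ A)
    ⟨b₀, fun z hz => by
      by_contra hlt
      exact hz (le_trans (inf_le_inf_left _ (F.anti (le_of_not_ge hlt))) hb₀)⟩
    ⟨c, fun hle => hvA (hle ⟨hvB, hc⟩)⟩
  refine ⟨m, hm, ?_⟩
  by_contra hne
  have := hmax (m + 1) hne
  omega

theorem IsJump.le {A B : Submodule K V} {b c : ℤ} (h : F.IsJump A B b)
    (hc : ¬ B ⊓ F.Q c ≤ A) : c ≤ b := by
  by_contra hlt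
  exact hc (le_trans (inf_le_inf_left _ (F.anti (show b + 1 ≤ c by omega))) h.2)

theorem IsJump.jump_eq {A B : Submodule K V} {b : ℤ} (h : F.IsJump A B b) :
    F.jump A B = b := by
  have h' : ∃ b, F.IsJump A B b := ⟨b, h⟩
  rw [jump, dif_pos h']
  exact le_antisymm (h.le h'.choose_spec.1) (h'.choose_spec.le h.1)

theorem isJump_jump {A B : Submodule K V} (h : A ⋖ B) (hs : F.Sep A B) :
    F.IsJump A B (F.jump A B) := by
  obtain ⟨b, hb⟩ := exists_isJump h.lt.not_ge hs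
  rwa [hb.jump_eq]

theorem inf_le_of_jump_lt {A B : Submodule K V} (h : A ⋖ B) (hs : F.Sep A B) {b : ℤ}
    (hb : F.jump A B < b) : B ⊓ F.Q b ≤ A := by
  by_contra hn
  have := (isJump_jump h hs).le hn
  omega

/-- Filling a step by an element of the jump. -/
theorem exists_jump_elem {A B : Submodule K V} (h : A ⋖ B) (hs : F.Sep A B) :
    ∃ v ∈ B, v ∈ F.Q (F.jump A B) ∧ v ∉ A ∧ B = A ⊔ (K ∙ v) := by
  obtain ⟨v, hv, hvA⟩ := SetLike.not_le_iff_exists.1 (isJump_jump h hs).1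
  refine ⟨v, hv.1, hv.2, hvA, ?_⟩
  have h1 : A < A ⊔ (K ∙ v) := left_lt_sup.2 fun hle => hvA (hle (mem_span_singleton_self v))
  have h2 : A ⊔ (K ∙ v) ≤ B := sup_le h.le ((span_singleton_le_iff_mem _ _).2 hv.1)
  exact ((h.eq_or_eq h1.le h2).resolve_left h1.ne').symm

end Filt

/-- A saturated chain on an interval of positions. -/
def ChainOn (M : ℤ → Submodule K V) (p r : ℤ) : Prop :=
  ∀ c, p ≤ c → c < r → M c ⋖ M (c + 1)

namespace ChainOn

variable {M : ℤ → Submodule K V} {p r : ℤ} {F : Filt K V}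

theorem sub (h : ChainOn M p r) {p' r' : ℤ} (hp : p ≤ p') (hr : r' ≤ r) : ChainOn M p' r' :=
  fun c h1 h2 => h c (hp.trans h1) (lt_of_lt_of_le h2 hr)

theorem le (h : ChainOn M p r) {c d : ℤ} (hc : p ≤ c) (hcd : c ≤ d) (hd : d ≤ r) :
    M c ≤ M d := by
  obtain ⟨k, rfl⟩ := Int.le.dest hcd
  induction k with
  | zero => simp
  | succ k ih =>
    have hk : c + ((k + 1 : ℕ) : ℤ) = c + (k : ℤ) + 1 := by push_cast; ring
    rw [hk] at hd ⊢
    exact (ih (by omega) (by omega)).trans (h _ (by omega) (by omega)).le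

theorem sep (h : ChainOn M p r) (hs : F.Sep (M p) (M r)) {c : ℤ} (hc : p ≤ c) (hc' : c < r) :
    F.Sep (M c) (M (c + 1)) :=
  hs.mono (h.le le_rfl hc hc'.le) (h.le (by omega) (by omega) le_rfl)

theorem sep_sub (h : ChainOn M p r) (hs : F.Sep (M p) (M r)) {c d : ℤ} (hc : p ≤ c)
    (hcd : c ≤ d) (hd : d ≤ r) : F.Sep (M c) (M d) :=
  hs.mono (h.le le_rfl hc (hcd.trans hd)) (h.le (hc.trans hcd) hd le_rfl)

/-- The jump at a position. -/
noncomputable def jumpAt (F : Filt K V) (M : ℤ → Submodule K V) (c : ℤ) : ℤ :=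
  F.jump (M c) (M (c + 1))

theorem inf_le_of_forall_lt (h : ChainOn M p r) (hs : F.Sep (M p) (M r)) {b : ℤ}
    {c d : ℤ} (hc : p ≤ c) (hcd : c ≤ d) (hd : d ≤ r)
    (hb : ∀ e, c ≤ e → e < d → jumpAt F M e < b) : M d ⊓ F.Q b ≤ M c := by
  obtain ⟨k, rfl⟩ := Int.le.dest hcd
  induction k with
  | zero => simp
  | succ k ih =>
    have hk : c + ((k + 1 : ℕ) : ℤ) = c + (k : ℤ) + 1 := by push_cast; ring
    rw [hk] at hd hb ⊢
    refine le_trans (le_inf ?_ inf_le_right) (ih (by omega) (by omega) fun e h1 h2 =>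
      hb e h1 (by omega))
    exact Filt.inf_le_of_jump_lt (h _ (by omega) (by omega))
      (h.sep hs (by omega) (by omega)) (hb _ (by omega) (by omega))

theorem jump_ne_of_lt (h : ChainOn M p r) (hs : F.Sep (M p) (M r)) {c d : ℤ} (hc : p ≤ c)
    (hcd : c < d) (hd : d < r) : jumpAt F M c ≠ jumpAt F M d := by
  intro he
  obtain ⟨v, hv, hvQ, hvA, -⟩ :=
    Filt.exists_jump_elem (h c hc (by omega)) (h.sep hs hc (by omega))
  obtain ⟨w, hw, hwQ, hwA, -⟩ :=
    Filt.exists_jump_elem (h d (by omega) hd) (h.sep hs (by omega) hd)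
  change v ∈ F.Q (jumpAt F M c) at hvQ
  change w ∈ F.Q (jumpAt F M d) at hwQ
  rw [← he] at hwQ
  have hc2 := Filt.isJump_jump (h c hc (by omega)) (h.sep hs hc (by omega))
  have hd2 := Filt.isJump_jump (h d (by omega) hd) (h.sep hs (by omega) hd)
  change F.IsJump _ _ (jumpAt F M c) at hc2
  change F.IsJump _ _ (jumpAt F M d) at hd2
  rw [← he] at hd2
  obtain ⟨u, -, hstep⟩ := F.step (jumpAt F M c)
  obtain ⟨x, hx, y, hy, hxy⟩ := mem_sup.1 (hstep hvQ)
  obtain ⟨α, rfl⟩ := mem_span_singleton.1 hx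
  obtain ⟨x', hx', y', hy', hxy'⟩ := mem_sup.1 (hstep hwQ)
  obtain ⟨β, rfl⟩ := mem_span_singleton.1 hx'
  have hα : α ≠ 0 := by
    rintro rfl
    rw [zero_smul, zero_add] at hxy
    exact hvA (hc2.2 ⟨hv, hxy ▸ hy⟩)
  have hvd : v ∈ M d := h.le (by omega) (by omega) (by omega) hv
  have hcomb : w - (β / α) • v = y' - (β / α) • y := by
    rw [← hxy, ← hxy', smul_add, smul_smul, div_mul_cancel₀ _ hα]
    abel
  have hmem : w - (β / α) • v ∈ M d := hd2.2
    ⟨sub_mem hw (smul_mem _ _ ((h.le (by omega) (by omega) (by omega)) hvd)),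
      hcomb ▸ sub_mem hy' (smul_mem _ _ hy)⟩
  have := add_mem hmem (smul_mem _ (β / α) hvd)
  rw [sub_add_cancel] at this
  exact hwA this

theorem jump_inj (h : ChainOn M p r) (hs : F.Sep (M p) (M r)) {c d : ℤ} (hc : p ≤ c)
    (hc' : c < r) (hd : p ≤ d) (hd' : d < r) (he : jumpAt F M c = jumpAt F M d) : c = d := by
  rcases lt_trichotomy c d with h1 | h1 | h1
  · exact absurd he (h.jump_ne_of_lt hs hc h1 hd')
  · exact h1
  · exact absurd he.symm (h.jump_ne_of_lt hs hd h1 hc')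

theorem inJumps_of_jump (h : ChainOn M p r) (hs : F.Sep (M p) (M r)) {c : ℤ} (hc : p ≤ c)
    (hc' : c < r) : F.InJumps (M p) (M r) (jumpAt F M c) := by
  intro hle
  obtain ⟨v, hv, hvQ, hvA, -⟩ :=
    Filt.exists_jump_elem (h c hc hc') (h.sep hs hc hc')
  have hv1 : v ∈ M r := h.le (by omega) (by omega) le_rfl hv
  obtain ⟨a, ha, w, hw, haw⟩ := mem_sup.1 (hle ⟨hv1, hvQ⟩)
  have hac : a ∈ M c := h.le le_rfl hc hc'.le ha
  have hwv : w = v - a := eq_sub_of_add_eq' haw
  have hwc : w ∈ M (c + 1) := by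
    rw [hwv]; exact sub_mem hv ((h c hc hc').le hac)
  have := (Filt.isJump_jump (h c hc hc') (h.sep hs hc hc')).2 ⟨hwc, hw.2⟩
  apply hvA
  rw [← haw]
  exact add_mem hac this

theorem exists_jump_of_inJumps (h : ChainOn M p r) (hs : F.Sep (M p) (M r)) (hpr : p ≤ r)
    {b : ℤ} (hb : F.InJumps (M p) (M r) b) : ∃ c, p ≤ c ∧ c < r ∧ jumpAt F M c = b := by
  by_contra hcon
  push Not at hcon
  apply hb
  have key : ∀ k : ℕ, p + k ≤ r →
      M (p + k) ⊓ F.Q b ≤ M p ⊔ (M r ⊓ F.Q (b + 1)) := by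
    intro k
    induction k with
    | zero => intro _; simp [(le_trans inf_le_left le_sup_left : M p ⊓ F.Q b ≤ M p ⊔ (M r ⊓ F.Q (b + 1)))]
    | succ k ih =>
      intro hk
      have hk' : p + ((k + 1 : ℕ) : ℤ) = p + (k : ℤ) + 1 := by push_cast; ring
      rw [hk'] at hk ⊢
      have ih := ih (by omega)
      have hcv := h (p + k) (by omega) (by omega)
      have hsep := h.sep hs (c := p + k) (by omega) (by omega)
      rcases lt_or_gt_of_ne (hcon (p + k) (by omega) (by omega)) with hlt | hgt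
      · exact le_trans (le_inf (Filt.inf_le_of_jump_lt hcv hsep hlt) inf_le_right) ih
      · obtain ⟨v, hv, hvQ, -, hspan⟩ := Filt.exists_jump_elem hcv hsep
        have hvQ1 : v ∈ F.Q (b + 1) := F.anti (by change b + 1 ≤ jumpAt F M (p + k); omega) hvQ
        rintro u ⟨hu, huQ⟩
        rw [SetLike.mem_coe, hspan] at hu
        obtain ⟨a, ha, z, hz, rfl⟩ := mem_sup.1 hu
        obtain ⟨α, rfl⟩ := mem_span_singleton.1 hz
        have haQ : a ∈ F.Q b := by
          have := sub_mem (SetLike.mem_coe.1 huQ)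
            (smul_mem _ α (F.anti (by omega) hvQ1 : v ∈ F.Q b))
          simpa using this
        refine add_mem (ih ⟨ha, haQ⟩) (mem_sup_right (smul_mem _ α ⟨?_, hvQ1⟩))
        exact h.le (by omega) (by omega) le_rfl hv
  obtain ⟨k, rfl⟩ := Int.le.dest hpr
  exact key k le_rfl

theorem inJumps_iff (h : ChainOn M p r) (hs : F.Sep (M p) (M r)) (hpr : p ≤ r) {b : ℤ} :
    F.InJumps (M p) (M r) b ↔ ∃ c, p ≤ c ∧ c < r ∧ jumpAt F M c = b :=
  ⟨h.exists_jump_of_inJumps hs hpr, by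
    rintro ⟨c, h1, h2, rfl⟩; exact h.inJumps_of_jump hs h1 h2⟩

/-- If the jumps below a position are at least `b` and the others are below `b`, the position is
determined. -/
theorem eq_sup_of_split (h : ChainOn M p r) (hs : F.Sep (M p) (M r)) {c b : ℤ} (hc : p ≤ c)
    (hc' : c ≤ r) (hlo : ∀ e, p ≤ e → e < c → b ≤ jumpAt F M e)
    (hhi : ∀ e, c ≤ e → e < r → jumpAt F M e < b) : M c = M p ⊔ (M r ⊓ F.Q b) := by
  refine le_antisymm ?_ (sup_le (h.le le_rfl hc hc') (h.inf_le_of_forall_lt hs hc hc' le_rfl hhi))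
  have key : ∀ k : ℕ, p + k ≤ c → M (p + k) ≤ M p ⊔ (M r ⊓ F.Q b) := by
    intro k
    induction k with
    | zero => intro _; simp
    | succ k ih =>
      intro hk
      have hk' : p + ((k + 1 : ℕ) : ℤ) = p + (k : ℤ) + 1 := by push_cast; ring
      rw [hk'] at hk ⊢
      obtain ⟨v, hv, hvQ, -, hspan⟩ :=
        Filt.exists_jump_elem (h (p + k) (by omega) (by omega))
          (h.sep hs (c := p + k) (by omega) (by omega))
      rw [hspan]
      refine sup_le (ih (by omega)) ((span_singleton_le_iff_mem _ _).2 ?_)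
      exact mem_sup_right ⟨h.le (by omega) (by omega) le_rfl hv,
        F.anti (hlo (p + k) (by omega) (by omega)) hvQ⟩
  obtain ⟨k, rfl⟩ := Int.le.dest hc
  exact key k le_rfl

end ChainOn

end Vale.Agent.P067
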