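import Vale.Agent.P067.Z.Jumps

/-! The space with basis indexed by the integers, its shifts, the standard lattices and periodic
chains of lattices. -/

namespace Vale.Agent.P067

open Submodule

variable (K : Type) [Field K]

/-- The space with basis indexed by the integers. -/
abbrev Vec : Type := ℤ →₀ K

/-- The shift of the basis. -/
noncomputable def shift (m : ℤ) : Vec K ≃ₗ[K] Vec K :=
  Finsupp.domLCongr (Equiv.addRight m)

/-- The span of the basis vectors below `a`. -/
noncomputable def low (a : ℤ) : Submodule K (Vec K) := Finsupp.supported K K (Set.Iio a)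

/-- The span of the basis vectors from `a` on. -/
noncomputable def high (a : ℤ) : Submodule K (Vec K) := Finsupp.supported K K (Set.Ici a)

variable {K}

theorem mem_low {a : ℤ} {f : Vec K} : f ∈ low K a ↔ ∀ x, a ≤ x → f x = 0 := by
  rw [low, Finsupp.mem_supported']
  simp

theorem mem_high {a : ℤ} {f : Vec K} : f ∈ high K a ↔ ∀ x, x < a → f x = 0 := by
  rw [high, Finsupp.mem_supported']
  simp

theorem low_mono {a b : ℤ} (h : a ≤ b) : low K a ≤ low K b :=
  Finsupp.supported_mono (Set.Iio_subset_Iio h)

theorem high_anti {a b : ℤ} (h : a ≤ b) : high K b ≤ high K a :=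
  Finsupp.supported_mono (Set.Ici_subset_Ici.2 h)

theorem low_inf_high {a b : ℤ} (h : a ≤ b) : low K a ⊓ high K b = ⊥ := by
  rw [eq_bot_iff]
  rintro f ⟨h1, h2⟩
  ext x
  rcases le_or_gt a x with hx | hx
  · exact (mem_low.1 h1) x hx
  · exact (mem_high.1 h2) x (lt_of_lt_of_le hx h)

theorem shift_apply (m : ℤ) (f : Vec K) (x : ℤ) : shift K m f x = f (x - m) := by
  simp [shift, Finsupp.domLCongr, Finsupp.equivMapDomain_apply, sub_eq_add_neg]

theorem shift_zero : shift K 0 = LinearEquiv.refl K (Vec K) := by
  ext f x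
  simp [shift_apply]

theorem shift_trans (m m' : ℤ) : (shift K m).trans (shift K m') = shift K (m + m') := by
  ext f x
  simp only [LinearEquiv.trans_apply, shift_apply]
  congr 1
  ring

/-- The image of a submodule under a shift. -/
noncomputable def shiftS (m : ℤ) (S : Submodule K (Vec K)) : Submodule K (Vec K) :=
  S.map (shift K m : Vec K →ₗ[K] Vec K)

theorem mem_shiftS {m : ℤ} {S : Submodule K (Vec K)} {f : Vec K} :
    f ∈ shiftS m S ↔ shift K (-m) f ∈ S := by
  constructor
  · rintro ⟨g, hg, rfl⟩
    have e : shift K (-m) (shift K m g) = g := by ext x; simp [shift_apply]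
    simpa only [LinearEquiv.coe_coe, e, SetLike.mem_coe] using hg
  · intro h
    refine ⟨_, h, ?_⟩
    ext x
    simp [shift_apply]

theorem shiftS_shiftS (m m' : ℤ) (S : Submodule K (Vec K)) :
    shiftS m (shiftS m' S) = shiftS (m + m') S := by
  ext f
  simp only [mem_shiftS]
  rw [← LinearEquiv.trans_apply, shift_trans, ← neg_add]

theorem shiftS_zero (S : Submodule K (Vec K)) : shiftS 0 S = S := by
  ext f
  simp [mem_shiftS, shift_zero]

theorem shiftS_le (m : ℤ) {S T : Submodule K (Vec K)} (h : S ≤ T) : shiftS m S ≤ shiftS m T :=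
  Submodule.map_mono h

theorem shiftS_le_iff (m : ℤ) {S T : Submodule K (Vec K)} :
    shiftS m S ≤ shiftS m T ↔ S ≤ T := by
  refine ⟨fun h => ?_, shiftS_le m⟩
  have := shiftS_le (-m) h
  simpa [shiftS_shiftS, shiftS_zero] using this

theorem shiftS_inf (m : ℤ) (S T : Submodule K (Vec K)) :
    shiftS m (S ⊓ T) = shiftS m S ⊓ shiftS m T := by
  ext f
  simp [mem_shiftS]

theorem shiftS_low (m a : ℤ) : shiftS m (low K a) = low K (a + m) := by
  ext f
  simp only [mem_shiftS, mem_low, shift_apply, sub_neg_eq_add]
  constructor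
  · intro h x hx
    have := h (x - m) (by omega)
    simpa using this
  · intro h x hx
    exact h (x + m) (by omega)

theorem shiftS_high (m a : ℤ) : shiftS m (high K a) = high K (a + m) := by
  ext f
  simp only [mem_shiftS, mem_high, shift_apply, sub_neg_eq_add]
  constructor
  · intro h x hx
    have := h (x - m) (by omega)
    simpa using this
  · intro h x hx
    exact h (x + m) (by omega)

theorem shiftS_covBy (m : ℤ) {S T : Submodule K (Vec K)} (h : S ⋖ T) :
    shiftS m S ⋖ shiftS m T := by
  refine ⟨lt_of_le_not_ge (shiftS_le m h.le) fun hle => h.lt.not_ge ((shiftS_le_iff m).1 hle),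
    fun U h1 h2 => ?_⟩
  have e : U = shiftS m (shiftS (-m) U) := by simp [shiftS_shiftS, shiftS_zero]
  rw [e] at h1 h2
  refine h.2 (c := shiftS (-m) U) ?_ ?_
  · exact lt_of_le_not_ge ((shiftS_le_iff m).1 h1.le) fun hle => h1.not_ge (shiftS_le m hle)
  · exact lt_of_le_not_ge ((shiftS_le_iff m).1 h2.le) fun hle => h2.not_ge (shiftS_le m hle)

variable (K) in
/-- A filtration compatible with the period `n` and separated on lattices. -/
structure PerFilt (n : ℕ) extends Filt K (Vec K) where
  /-- The sign of the period. -/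
  eps : ℤ
  eps_mul : eps * eps = 1
  per : ∀ b, shiftS (n : ℤ) (Q b) = Q (b + eps * n)
  sep : ∀ k : ℤ, ∀ A B : Submodule K (Vec K), low K (-k) ≤ A → B ≤ low K k →
    toFilt.Sep A B

theorem exists_bound_support (f : Vec K) : ∃ k : ℤ, ∀ x, f x ≠ 0 → -k ≤ x ∧ x < k := by
  refine ⟨(∑ y ∈ f.support, |y|) + 1, fun x hx => ?_⟩
  have : |x| ≤ ∑ y ∈ f.support, |y| :=
    Finset.single_le_sum (f := fun y : ℤ => |y|) (fun y _ => abs_nonneg y)
      (Finsupp.mem_support_iff.2 hx)
  rw [abs_le] at this
  omega

variable (K) in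
/-- The filtration by the spans of the basis vectors from `b` on. -/
noncomputable def pos (n : ℕ) : PerFilt K n where
  Q := high K
  anti := fun _ _ h => high_anti h
  step := by
    intro b
    refine ⟨Finsupp.single b 1, mem_high.2 fun x hx => by simp [hx.ne], fun f hf => ?_⟩
    refine mem_sup.2 ⟨f b • Finsupp.single b 1, smul_mem _ _ (mem_span_singleton_self _),
      f - f b • Finsupp.single b 1, mem_high.2 fun x hx => ?_, by abel⟩
    rcases (show x < b ∨ x = b by omega) with h | rfl
    · simp [mem_high.1 hf x h, h.ne]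
    · simp
  exhaust := fun f => by
    obtain ⟨k, hk⟩ := exists_bound_support f
    exact ⟨-k, mem_high.2 fun x hx => by by_contra h; have := hk x h; omega⟩
  eps := 1
  eps_mul := one_mul 1
  per := fun b => by rw [one_mul]; exact shiftS_high _ _
  sep := fun k A B _ hB => ⟨k, le_trans (inf_le_inf_right _ hB) (by simp [low_inf_high])⟩

variable (K) in
/-- The filtration by the standard lattices. -/
noncomputable def neg (n : ℕ) : PerFilt K n where
  Q := fun b => low K (1 - b)
  anti := fun _ _ h => low_mono (by omega)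
  step := by
    intro b
    refine ⟨Finsupp.single (-b) 1, mem_low.2 fun x hx => by
      simp [show (-b : ℤ) ≠ x by omega], fun f hf => ?_⟩
    refine mem_sup.2 ⟨f (-b) • Finsupp.single (-b) 1, smul_mem _ _ (mem_span_singleton_self _),
      f - f (-b) • Finsupp.single (-b) 1, mem_low.2 fun x hx => ?_, by abel⟩
    rcases (show x = -b ∨ 1 - b ≤ x by omega) with rfl | h
    · simp
    · simp [mem_low.1 hf x h, show x ≠ -b by omega]
  exhaust := fun f => by
    obtain ⟨k, hk⟩ := exists_bound_support f
    exact ⟨1 - k, mem_low.2 fun x hx => by by_contra h; have := hk x h; omega⟩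
  eps := -1
  eps_mul := by norm_num
  per := fun b => by
    rw [shiftS_low]
    congr 1
    ring
  sep := fun k A B hA _ => ⟨1 + k, le_trans inf_le_right (le_trans (low_mono (by omega)) hA)⟩

end Vale.Agent.P067
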