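import Vale.Agent.P067.Z.Contract

/-! Extending a primitive of a cocycle from the chambers of potential zero to all chambers. -/

namespace Vale.Agent.P067

variable {ι Ω : Type*} [DecidableEq ι] [Fintype ι]

/-- A potential whose minimal chambers in each class are those without descents outside the
type set. -/
structure Morse (R : Finset ι → Ω → Ω → Prop) (pot : Ω → ℕ) (D : Ω → Finset ι) : Prop where
  refl : ∀ T x, R T x x
  symm : ∀ {T x y}, R T x y → R T y x
  trans : ∀ {T x y z}, R T x y → R T y z → R T x z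
  anti : ∀ {S T x y}, S ⊆ T → R T x y → R S x y
  desc : ∀ {x T}, ¬ D x ⊆ T → ∃ y, R T x y ∧ pot y < pot x
  uniq : ∀ {T x y}, R T x y → D x ⊆ T → D y ⊆ T → pot x = pot y ∧ D x = D y

/-- Invariant on the minimal chambers of a residue. -/
def LinkInv (R : Finset ι → Ω → Ω → Prop) (E : Finset ι) (Y : Ω → Prop)
    (f : Finset ι → Ω → ZMod 2) : Prop :=
  ∀ T y z, E ⊆ T → Y y → Y z → R T y z → f T y = f T z

/-- Augmented exactness of the minimal chambers of the residue of `x` below the top size. -/
def LinkExact (R : Finset ι → Ω → Ω → Prop) (D : Ω → Finset ι) (x : Ω) : Prop :=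
  ∀ m, (D x).card ≤ m → m < Fintype.card ι → ∀ φ : Finset ι → Ω → ZMod 2,
    LinkInv R (D x) (fun y => R (D x) x y ∧ D y ⊆ D x) φ →
    (∀ T y, D x ⊆ T → T.card = m + 1 → R (D x) x y → D y ⊆ D x →
      ∑ t ∈ T \ D x, φ (T.erase t) y = 0) →
    ∃ ψ, LinkInv R (D x) (fun y => R (D x) x y ∧ D y ⊆ D x) ψ ∧
      ∀ T y, D x ⊆ T → T.card = m → R (D x) x y → D y ⊆ D x →
        ∑ t ∈ T \ D x, ψ (T.erase t) y = φ T y

variable {R : Finset ι → Ω → Ω → Prop} {pot : Ω → ℕ} {D : Ω → Finset ι}

open Classical in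
/-- The least potential in a class. -/
noncomputable def level (R : Finset ι → Ω → Ω → Prop) (pot : Ω → ℕ) (T : Finset ι) (x : Ω) :
    ℕ :=
  sInf (pot '' {y | R T x y})

/-- A chamber of least potential in a class, the same for the whole class. -/
noncomputable def low' [Nonempty Ω] (R : Finset ι → Ω → Ω → Prop) (pot : Ω → ℕ)
    (T : Finset ι) (x : Ω) : Ω :=
  Classical.epsilon fun y => R T x y ∧ pot y = level R pot T x

namespace Morse

variable (h : Morse R pot D)
include h

omit [DecidableEq ι] [Fintype ι] in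
theorem level_le {T : Finset ι} {x y : Ω} (hxy : R T x y) : level R pot T x ≤ pot y :=
  Nat.sInf_le ⟨y, hxy, rfl⟩

omit [DecidableEq ι] [Fintype ι] in
theorem level_congr {T : Finset ι} {x y : Ω} (hxy : R T x y) :
    level R pot T x = level R pot T y := by
  unfold level
  congr 2
  ext z
  exact ⟨fun hz => h.trans (h.symm hxy) hz, fun hz => h.trans hxy hz⟩

theorem low_congr [Nonempty Ω] {T : Finset ι} {x y : Ω} (hxy : R T x y) :
    low' R pot T x = low' R pot T y := by
  unfold low'
  rw [h.level_congr hxy]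
  congr 1
  funext z
  exact propext (and_congr_left fun _ =>
    ⟨fun hz => h.trans (h.symm hxy) hz, fun hz => h.trans hxy hz⟩)

omit [DecidableEq ι] [Fintype ι] in
theorem low_spec [Nonempty Ω] (T : Finset ι) (x : Ω) :
    R T x (low' R pot T x) ∧ pot (low' R pot T x) = level R pot T x := by
  refine Classical.epsilon_spec (p := fun y => R T x y ∧ pot y = level R pot T x) ?_
  obtain ⟨y, hy, he⟩ := Nat.sInf_mem (s := pot '' {y | R T x y}) ⟨_, x, h.refl T x, rfl⟩
  exact ⟨y, hy, he⟩

theorem desc_low [Nonempty Ω] (T : Finset ι) (x : Ω) : D (low' R pot T x) ⊆ T := by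
  by_contra hn
  obtain ⟨y, hy, hlt⟩ := h.desc hn
  obtain ⟨h1, h2⟩ := h.low_spec T x
  have := h.level_le (h.trans h1 hy)
  omega

theorem level_eq_of_desc {T : Finset ι} {x : Ω} (hx : D x ⊆ T) : level R pot T x = pot x := by
  have : Nonempty Ω := ⟨x⟩
  obtain ⟨h1, h2⟩ := h.low_spec T x
  rw [← h2, ← (h.uniq h1 hx (h.desc_low T x)).1]

theorem level_lt_of_not_desc {T : Finset ι} {x : Ω} (hx : ¬ D x ⊆ T) :
    level R pot T x < pot x := by
  obtain ⟨y, hy, hlt⟩ := h.desc hx
  exact lt_of_le_of_lt (h.level_le hy) hlt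

theorem level_mono {S T : Finset ι} {x : Ω} (hST : S ⊆ T) :
    level R pot S x ≤ level R pot T x := by
  have : Nonempty Ω := ⟨x⟩
  obtain ⟨h1, h2⟩ := h.low_spec T x
  exact h2 ▸ h.level_le (h.anti hST h1)

omit h [Fintype ι] in
theorem sum_sum_erase (w : Finset ι → ZMod 2) (S : Finset ι) (T : Finset ι) :
    ∑ a ∈ S, ∑ b ∈ S.erase a, w ((T.erase a).erase b) = 0 := by
  induction S using Finset.induction_on with
  | empty => simp
  | insert c S hc ih =>
    rw [Finset.sum_insert hc, Finset.erase_insert hc]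
    have : ∀ a ∈ S, ∑ b ∈ (insert c S).erase a, w ((T.erase a).erase b) =
        w ((T.erase a).erase c) + ∑ b ∈ S.erase a, w ((T.erase a).erase b) := by
      intro a ha
      have hac : c ≠ a := fun e => hc (e ▸ ha)
      rw [Finset.erase_insert_of_ne hac, Finset.sum_insert (fun e => hc (Finset.mem_of_mem_erase e))]
    rw [Finset.sum_congr rfl this, Finset.sum_add_distrib, ih, add_zero, ← Finset.sum_add_distrib]
    refine Finset.sum_eq_zero fun a _ => ?_
    rw [Finset.erase_right_comm]
    exact CharTwo.add_self_eq_zero _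

/-- One step of the recursion on the level. -/
theorem extend_step [Nonempty Ω] (hex : ∀ x, 0 < pot x → LinkExact R D x) {k : ℕ}
    (hk : k + 1 < Fintype.card ι) {z : Finset ι → Ω → ZMod 2} (hz : Invariant R z)
    (hdz : ∀ T x, T.card = k + 2 → delta z T x = 0) {N : ℕ} {w : Finset ι → Ω → ZMod 2}
    (hw : Invariant R w)
    (heq : ∀ T x, T.card = k + 1 → level R pot T x ≤ N → delta w T x = z T x) :
    ∃ w', Invariant R w' ∧
      (∀ T x, T.card = k + 1 → level R pot T x ≤ N + 1 → delta w' T x = z T x) ∧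
      ∀ T x, level R pot T x ≠ N + 1 → w' T x = w T x := by
  classical
  have hψ : ∀ c : Ω, ∃ ψ : Finset ι → Ω → ZMod 2, pot c = N + 1 → (D c).card ≤ k + 1 →
      LinkInv R (D c) (fun y => R (D c) c y ∧ D y ⊆ D c) ψ ∧
      ∀ T y, D c ⊆ T → T.card = k + 1 → R (D c) c y → D y ⊆ D c →
        ∑ t ∈ T \ D c, ψ (T.erase t) y = z T y + ∑ t ∈ D c, w (T.erase t) y := by
    intro c
    by_cases hc : pot c = N + 1 ∧ (D c).card ≤ k + 1
    · obtain ⟨ψ, h1, h2⟩ := hex c (by omega) (k + 1) hc.2 hk
        (fun T y => z T y + ∑ t ∈ D c, w (T.erase t) y)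
        (fun T y y' _ _ _ hr => by
          show _ + _ = _ + _
          rw [hz T y y' hr, Finset.sum_congr rfl fun t _ =>
            hw _ y y' (h.anti (Finset.erase_subset t T) hr)])
        (fun T y hT hcard hry hdy => by
          obtain ⟨hpy, hDy⟩ := h.uniq hry subset_rfl hdy
          rw [Finset.sum_add_distrib]
          have hlow : ∀ u ∈ D c, delta w (T.erase u) y = z (T.erase u) y := by
            intro u hu
            refine heq _ _ (by rw [Finset.card_erase_of_mem (hT hu), hcard]; omega) ?_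
            have := h.level_lt_of_not_desc (T := T.erase u) (x := y) (fun hsub => by
              rw [← hDy] at hsub
              exact Finset.notMem_erase u T (hsub hu))
            omega
          have e1 : ∑ t ∈ T \ D c, z (T.erase t) y = ∑ u ∈ D c, delta w (T.erase u) y := by
            have h0 := hdz T y (by omega)
            rw [delta, ← Finset.sum_sdiff hT, CharTwo.add_eq_zero] at h0
            rw [h0]
            exact Finset.sum_congr rfl fun u hu => (hlow u hu).symm
          rw [e1, Finset.sum_comm (s := T \ D c) (t := D c), ← Finset.sum_add_distrib]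
          refine (Finset.sum_congr rfl fun u hu => ?_).trans
            (sum_sum_erase (fun S => w S y) (D c) T)
          rw [delta, ← Finset.sum_sdiff (show (D c).erase u ⊆ T.erase u from
            Finset.erase_subset_erase u hT)]
          rw [show T.erase u \ (D c).erase u = T \ D c by
            ext a; simp only [Finset.mem_sdiff, Finset.mem_erase]; aesop]
          rw [add_right_comm, Finset.sum_congr rfl fun t (_ : t ∈ T \ D c) =>
            show w ((T.erase t).erase u) y = w ((T.erase u).erase t) y by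
              rw [Finset.erase_right_comm],
            CharTwo.add_self_eq_zero, zero_add])
      exact ⟨ψ, fun _ _ => ⟨h1, h2⟩⟩
    · exact ⟨0, fun a b => absurd ⟨a, b⟩ hc⟩
  choose ψ hψ using hψ
  set cl : Ω → Ω := fun x =>
    Classical.epsilon fun y => R (D x) x y ∧ D y ⊆ D x with hcl
  have cl_spec : ∀ x, R (D x) x (cl x) ∧ D (cl x) ⊆ D x := fun x =>
    Classical.epsilon_spec (p := fun y => R (D x) x y ∧ D y ⊆ D x)
      ⟨x, h.refl _ _, subset_rfl⟩
  have cl_congr : ∀ x y, R (D x) x y → D y = D x → cl x = cl y := by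
    intro x y hr hd
    simp only [hcl, hd]
    congr 1
    funext a
    exact propext (and_congr_left fun _ =>
      ⟨fun ha => h.trans (h.symm hr) ha, fun ha => h.trans hr ha⟩)
  refine ⟨fun T x => if level R pot T x = N + 1 then ψ (cl (low' R pot T x)) T (low' R pot T x)
    else w T x, fun T x y hr => ?_, fun T x hcard hlev => ?_, fun T x hne => if_neg hne⟩
  · show ite _ _ _ = ite _ _ _
    rw [h.level_congr hr, h.low_congr hr, hw T x y hr]
  rcases hlev.lt_or_eq with hlt | hlev
  · rw [← heq T x hcard (by omega)]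
    refine Finset.sum_congr rfl fun t _ => if_neg ?_
    have := h.level_mono (x := x) (Finset.erase_subset t T)
    omega
  set x0 := low' R pot T x with hx0
  obtain ⟨hrx, hpx⟩ := h.low_spec T x
  have hd0 := h.desc_low T x
  obtain ⟨hc1, hc2⟩ := cl_spec x0
  obtain ⟨hpc, hDc⟩ := h.uniq hc1 subset_rfl hc2
  obtain ⟨hinv, hsolve⟩ := hψ (cl x0) (by rw [← hpc, hpx, hlev]) (by
    rw [← hDc, ← hcard]; exact Finset.card_le_card hd0)
  have hmem : R (D (cl x0)) (cl x0) x0 ∧ D x0 ⊆ D (cl x0) := by
    rw [← hDc]; exact ⟨h.symm hc1, subset_rfl⟩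
  have hs := hsolve T x0 (hDc ▸ hd0) hcard hmem.1 hmem.2
  rw [← hDc] at hs
  have hz0 : z T x = z T x0 := hz T x x0 hrx
  rw [hz0, delta, ← Finset.sum_sdiff hd0]
  have hA : ∀ t ∈ T \ D x0, (if level R pot (T.erase t) x = N + 1 then
      ψ (cl (low' R pot (T.erase t) x)) (T.erase t) (low' R pot (T.erase t) x)
      else w (T.erase t) x) = ψ (cl x0) (T.erase t) x0 := by
    intro t ht
    rw [Finset.mem_sdiff] at ht
    have hsub : D x0 ⊆ T.erase t := fun a ha =>
      Finset.mem_erase.2 ⟨fun e => ht.2 (e ▸ ha), hd0 ha⟩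
    have hr' : R (T.erase t) x x0 := h.anti (Finset.erase_subset t T) hrx
    rw [h.level_congr hr', h.low_congr hr', h.level_eq_of_desc hsub, hpx, hlev, if_pos rfl]
    obtain ⟨hy1, hy2⟩ := h.low_spec (T.erase t) x0
    obtain ⟨-, hDy⟩ := h.uniq hy1 hsub (h.desc_low (T.erase t) x0)
    have hyD : R (D x0) x0 (low' R pot (T.erase t) x0) := h.anti hsub hy1
    rw [← cl_congr x0 _ hyD hDy.symm]
    refine hinv _ _ _ (hDc ▸ hsub) ⟨?_, ?_⟩ hmem (h.symm hy1)
    · rw [← hDc]; exact h.trans (h.symm hc1) hyD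
    · rw [← hDc, ← hDy]
  have hB : ∀ t ∈ D x0, (if level R pot (T.erase t) x = N + 1 then
      ψ (cl (low' R pot (T.erase t) x)) (T.erase t) (low' R pot (T.erase t) x)
      else w (T.erase t) x) = w (T.erase t) x0 := by
    intro t ht
    have hr' : R (T.erase t) x x0 := h.anti (Finset.erase_subset t T) hrx
    have := h.level_lt_of_not_desc (T := T.erase t) (x := x0)
      (fun hs => Finset.notMem_erase t T (hs ht))
    rw [hpx, hlev] at this
    rw [h.level_congr hr', if_neg (by omega), hw _ _ _ hr']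
  rw [Finset.sum_congr rfl hA, Finset.sum_congr rfl hB, hs, add_assoc,
    CharTwo.add_self_eq_zero, add_zero]

/-- The extension theorem. -/
theorem extend (hex : ∀ x, 0 < pot x → LinkExact R D x) {k : ℕ}
    (hk : k + 1 < Fintype.card ι) {z : Finset ι → Ω → ZMod 2} (hz : Invariant R z)
    (hdz : ∀ T x, T.card = k + 2 → delta z T x = 0) {v : Finset ι → Ω → ZMod 2}
    (hv : ∀ T x y, pot x = 0 → pot y = 0 → R T x y → v T x = v T y)
    (hdv : ∀ T x, T.card = k + 1 → pot x = 0 → delta v T x = z T x) :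
    ∃ w, IsCochain R k w ∧ (∀ T x, T.card = k + 1 → delta w T x = z T x) ∧
      ∀ T x, T.card = k → pot x = 0 → w T x = v T x := by
  classical
  rcases isEmpty_or_nonempty Ω with hΩ | hΩ
  · exact ⟨0, ⟨fun _ _ _ => rfl, fun _ _ _ _ => rfl⟩, fun T x => isEmptyElim x,
      fun T x => isEmptyElim x⟩
  let P : ℕ → (Finset ι → Ω → ZMod 2) → Prop := fun N w => Invariant R w ∧
    ∀ T x, T.card = k + 1 → level R pot T x ≤ N → delta w T x = z T x
  let w0 : Finset ι → Ω → ZMod 2 := fun T x =>
    if level R pot T x = 0 then v T (low' R pot T x) else 0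
  have h0 : P 0 w0 := by
    refine ⟨fun T x y hr => ?_, fun T x hcard hlev => ?_⟩
    · show ite _ _ _ = ite _ _ _
      rw [h.level_congr hr, h.low_congr hr]
    · obtain ⟨hr, hp⟩ := h.low_spec T x
      have hp0 : pot (low' R pot T x) = 0 := by omega
      rw [hz T x _ hr, ← hdv T _ hcard hp0]
      refine Finset.sum_congr rfl fun t _ => ?_
      have hr' : R (T.erase t) x (low' R pot T x) := h.anti (Finset.erase_subset t T) hr
      have hl := h.level_le hr'
      obtain ⟨h1, h2⟩ := h.low_spec (T.erase t) x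
      rw [show w0 (T.erase t) x = v (T.erase t) (low' R pot (T.erase t) x) from if_pos (by omega)]
      exact hv _ _ _ (by omega) hp0 (h.trans (h.symm h1) hr')
  have hstep : ∀ N w, P N w → ∃ w', P (N + 1) w' ∧
      ∀ T x, level R pot T x ≠ N + 1 → w' T x = w T x := fun N w hPw => by
    obtain ⟨w', a, b, c⟩ := h.extend_step hex hk hz hdz hPw.1 hPw.2
    exact ⟨w', ⟨a, b⟩, c⟩
  choose nxt hnxt using hstep
  let seq : (N : ℕ) → {w // P N w} := fun N =>
    Nat.rec ⟨w0, h0⟩ (fun N w => ⟨nxt N w.1 w.2, (hnxt N w.1 w.2).1⟩) N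
  have stable : ∀ N M, N ≤ M → ∀ T x, level R pot T x ≤ N → (seq M).1 T x = (seq N).1 T x := by
    intro N M hNM T x hl
    induction M, hNM using Nat.le_induction with
    | base => rfl
    | succ M hM ih => rw [← ih]; exact (hnxt M _ (seq M).2).2 T x (by omega)
  refine ⟨fun T x => if T.card = k then (seq (level R pot T x)).1 T x else 0,
    ⟨fun T x hc => if_neg hc, fun T x y hr => ?_⟩, fun T x hcard => ?_, fun T x hcard hx => ?_⟩
  · show ite _ _ _ = ite _ _ _
    rw [h.level_congr hr, (seq _).2.1 T x y hr]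
  · rw [← (seq (level R pot T x)).2.2 T x hcard le_rfl]
    refine Finset.sum_congr rfl fun t ht => ?_
    show (if (T.erase t).card = k then _ else _) = _
    rw [if_pos (by rw [Finset.card_erase_of_mem ht]; omega)]
    exact (stable _ _ (h.level_mono (Finset.erase_subset t T)) _ _ le_rfl).symm
  · show (if T.card = k then _ else _) = _
    rw [if_pos hcard]
    have hl : level R pot T x = 0 := by
      have := h.level_le (h.refl T x); omega
    obtain ⟨h1, h2⟩ := h.low_spec T x
    rw [hl, show (seq 0).1 T x = v T (low' R pot T x) from if_pos hl]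
    exact hv _ _ _ (by omega) hx (h.symm h1)

end Morse

end Vale.Agent.P067
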