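import Vale.Agent.P067.Z.Contract
import Vale.Agent.P067.Z.Jumps

/-! The interface between M2 and M3: complexes of sorted flags of an interval. -/

namespace Vale.Agent.P067

variable {K V : Type} [Field K] [AddCommGroup V] [Module K V]

/-- The free positions of the interval from `p` to `r` with the positions in `D` fixed. -/
noncomputable def freePos (p r : ℤ) (D : Finset ℤ) : Finset ℤ := Finset.Ioo p r \ D

/-- The jumps increase at every free position. -/
def SortedOn (F : Filt K V) (M : ℤ → Submodule K V) (p r : ℤ) (D : Finset ℤ) : Prop :=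
  ∀ c ∈ freePos p r D, ChainOn.jumpAt F M (c - 1) < ChainOn.jumpAt F M c

/-- The sorted chains of the interval that agree with `x₀` at the ends and at `D`. -/
def OppFlag (F : Filt K V) (x₀ : ℤ → Submodule K V) (p r : ℤ) (D : Finset ℤ) : Type :=
  {M : ℤ → Submodule K V // ChainOn M p r ∧ M p = x₀ p ∧ M r = x₀ r ∧
    (∀ c ∈ D, M c = x₀ c) ∧ SortedOn F M p r D}

/-- Two chains are related by a set of positions if they agree there. -/
def oppRel (F : Filt K V) (x₀ : ℤ → Submodule K V) (p r : ℤ) (D : Finset ℤ) :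
    Finset ℤ → OppFlag F x₀ p r D → OppFlag F x₀ p r D → Prop :=
  fun S M N => ∀ c ∈ S, M.1 c = N.1 c

/-- M3: the complexes of sorted flags have contractions of bounded size once the field is
large. -/
def OppStatement : Prop :=
  ∀ l : ℕ, ∃ C P : ℕ, ∀ q : ℕ, ∀ _ : Fact q.Prime, P ≤ q →
    ∀ (V : Type) (_ : AddCommGroup V) (_ : Module (ZMod q) V) (F : Filt (ZMod q) V)
      (x₀ : ℤ → Submodule (ZMod q) V) (p : ℤ) (D : Finset ℤ),
      D ⊆ Finset.Ioo p (p + l) → ChainOn x₀ p (p + l) → F.Sep (x₀ p) (x₀ (p + l)) →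
      SortedOn F x₀ p (p + l) D →
      Contract (oppRel F x₀ p (p + l) D) (freePos p (p + l) D) C

end Vale.Agent.P067
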